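import Vale.Agent.P139.H523.Tail
import Vale.Agent.P139.H644.Pot

/-!
# P139 / X2.tail : Wiener bounds of the potentials from the profile package `UP`
-/

open scoped ComplexConjugate ContDiff Topology
open Complex Set Filter Metric

namespace Vale.Agent.P139.H523

open Vale.Agent.P139.BU
open Vale.Agent.P139.H644
open Vale.Agent.P139.H201 (WienerRep nd)

variable {d : ℕ} {B : Set (ℝ × ℝ)} {m0 : ℕ} {w R : ℕ → ℝ} {q : ℕ → ℝ → ℂ}

lemma contDiff_W1q {m : ℕ} {f : E d → ℂ} {N : ℕ} (hf : ContDiff ℝ N f) :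
    ContDiff ℝ N (fun x => W1 m (f x)) := by
  have hc : ContDiff ℝ N (fun y => conj (f y)) := Complex.conjCLE.contDiff.comp hf
  unfold W1
  exact (hf.mul hc).pow m

lemma contDiff_W2q {m : ℕ} {f : E d → ℂ} {N : ℕ} (hf : ContDiff ℝ N f) :
    ContDiff ℝ N (fun x => W2 m (f x)) := by
  have hc : ContDiff ℝ N (fun y => conj (f y)) := Complex.conjCLE.contDiff.comp hf
  unfold W2
  exact (hf.pow _).mul (hc.pow _)

lemma contDiff_W2cq {m : ℕ} {f : E d → ℂ} {N : ℕ} (hf : ContDiff ℝ N f) :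
    ContDiff ℝ N (fun x => conj (W2 m (f x))) :=
  Complex.conjCLE.contDiff.comp (contDiff_W2q hf)

/-- **[X2.tail]** exponentially small Wiener norm of the cut-off potentials. -/
theorem up_tail_wiener (h : UP d B m0 w R q) (s : ℕ) {η : ℝ} (hη : 0 < η) {χ : E d → ℂ}
    (hχ : ContDiff ℝ ∞ χ) {ρ0 ρ1 : ℝ} (h1 : ∀ x, ‖x‖ < ρ0 → χ x = 1)
    (h0 : ∀ x, ρ1 < ‖x‖ → χ x = 0) :
    ∃ c > 0, ∃ A > 0, ∃ m1 : ℕ, m0 ≤ m1 ∧ ∀ m, m1 ≤ m → R m + η ≤ ρ0 →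
      WienerRep s (fun x => (1 - χ x) * W1 m (q m ‖x‖)) (A * Real.exp (-(c * m))) ∧
      WienerRep s (fun x => (1 - χ x) * W2 m (q m ‖x‖)) (A * Real.exp (-(c * m))) ∧
      WienerRep s (fun x => (1 - χ x) * conj (W2 m (q m ‖x‖))) (A * Real.exp (-(c * m))) := by
  obtain ⟨c, hc, hp⟩ := pot_tail h hη
  obtain ⟨A, hA, m1, hm1⟩ := hp (nd (E d) s)
  obtain ⟨C, hC, H⟩ := tail_wiener s hχ h1 h0 (δ := 2) (by norm_num)
  refine ⟨c, hc, C * A, by positivity, max m0 m1, le_max_left _ _, fun m hm hR => ?_⟩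
  have hm0 : m0 ≤ m := (le_max_left _ _).trans hm
  have hq := contDiff_q h hm0 (nd (E d) s)
  have key := fun i (hi : i ≤ nd (E d) s) (x : E d) (hx : ρ0 ≤ ‖x‖) =>
    hm1 m ((le_max_right _ _).trans hm) i hi x (hR.trans hx)
  rw [mul_assoc]
  have hAe : 0 ≤ A * Real.exp (-(c * m)) := by positivity
  exact ⟨H _ _ hAe (contDiff_W1q hq) fun i hi x hx => (key i hi x hx).1,
    H _ _ hAe (contDiff_W2q hq) fun i hi x hx => (key i hi x hx).2.1,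
    H _ _ hAe (contDiff_W2cq hq) fun i hi x hx => (key i hi x hx).2.2⟩

/-- Wiener norms of the potentials, polynomial in `m`. -/
theorem up_pot_wiener (h : UP d B m0 w R q) (s : ℕ) :
    ∃ A : ℕ, ∀ m, m0 ≤ m →
      WienerRep s (fun x : E d => W1 m (q m ‖x‖)) ((A : ℝ) * (m : ℝ) ^ A) ∧
      WienerRep s (fun x : E d => W2 m (q m ‖x‖)) ((A : ℝ) * (m : ℝ) ^ A) ∧
      WienerRep s (fun x : E d => conj (W2 m (q m ‖x‖))) ((A : ℝ) * (m : ℝ) ^ A) := by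
  obtain ⟨A, hA⟩ := pot_global h (nd (E d) s)
  obtain ⟨C, hC, H⟩ := sym_wiener d s (δ := 2) (by norm_num)
  obtain ⟨n, hn⟩ := exists_nat_ge (C * A)
  refine ⟨n + A, fun m hm => ?_⟩
  have hm1 : 1 ≤ m := h.m0_pos.trans hm
  have hmR : (1 : ℝ) ≤ m := by exact_mod_cast hm1
  have hq := contDiff_q h hm (nd (E d) s)
  have hle : C * ((A : ℝ) * (m : ℝ) ^ A) ≤ ((n + A : ℕ) : ℝ) * (m : ℝ) ^ (n + A) := by
    have e1 : (m : ℝ) ^ A ≤ (m : ℝ) ^ (n + A) := pow_le_pow_right₀ hmR (by omega)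
    have e2 : (n : ℝ) ≤ ((n + A : ℕ) : ℝ) := by exact_mod_cast Nat.le_add_right _ _
    calc C * ((A : ℝ) * (m : ℝ) ^ A) = (C * A) * (m : ℝ) ^ A := by ring
      _ ≤ ((n + A : ℕ) : ℝ) * (m : ℝ) ^ (n + A) := by
        gcongr
        exact hn.trans e2
  have hmono : ∀ {V : E d → ℂ}, WienerRep s V (C * ((A : ℝ) * (m : ℝ) ^ A)) →
      WienerRep s V (((n + A : ℕ) : ℝ) * (m : ℝ) ^ (n + A)) := by
    rintro V ⟨φ, a1, a2, a3, a4⟩
    exact ⟨φ, a1, a2, a3, a4.trans hle⟩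
  have hAe : 0 ≤ (A : ℝ) * (m : ℝ) ^ A := by positivity
  exact ⟨hmono (H _ _ hAe (contDiff_W1q hq) fun i hi x => (hA m hm i hi x).1),
    hmono (H _ _ hAe (contDiff_W2q hq) fun i hi x => (hA m hm i hi x).2.1),
    hmono (H _ _ hAe (contDiff_W2cq hq) fun i hi x => (hA m hm i hi x).2.2)⟩

/-- Plain derivative bounds of the potentials, polynomial in `m`. -/
theorem up_pot_bound (h : UP d B m0 w R q) (n : ℕ) :
    ∃ A : ℕ, 1 ≤ A ∧ ∀ m, m0 ≤ m → ∀ i ≤ n, ∀ x : E d,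
      PotBd m (fun x : E d => q m ‖x‖) i x ((A : ℝ) * (m : ℝ) ^ A) := by
  obtain ⟨A, hA⟩ := pot_global h n
  refine ⟨A + 1, by omega, fun m hm i hi x => (hA m hm i hi x).mono ?_⟩
  have hm1 : 1 ≤ m := h.m0_pos.trans hm
  have hmR : (1 : ℝ) ≤ m := by exact_mod_cast hm1
  have e1 : (m : ℝ) ^ A ≤ (m : ℝ) ^ (A + 1) := pow_le_pow_right₀ hmR (by omega)
  have e2 : (1 + ‖x‖) ^ (-2 - (i : ℝ)) ≤ 1 := by
    apply Real.rpow_le_one_of_one_le_of_nonpos (one_le_one_add_norm x)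
    have := Nat.cast_nonneg (α := ℝ) i
    linarith
  have e3 : 0 ≤ (A : ℝ) * (m : ℝ) ^ A := by positivity
  calc (A : ℝ) * (m : ℝ) ^ A * (1 + ‖x‖) ^ (-2 - (i : ℝ))
      ≤ (A : ℝ) * (m : ℝ) ^ A * 1 := mul_le_mul_of_nonneg_left e2 e3
    _ ≤ ((A + 1 : ℕ) : ℝ) * (m : ℝ) ^ (A + 1) := by
      rw [mul_one]
      have : (A : ℝ) ≤ ((A + 1 : ℕ) : ℝ) := by exact_mod_cast Nat.le_succ A
      gcongr

end Vale.Agent.P139.H523
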