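import Vale.Agent.P139.H523.Reg0

/-!
# P139 / REG0, second part: bounded solutions are smooth functions of `r²`
-/

open Set MeasureTheory Filter Topology
open scoped ContDiff

namespace Vale.Agent.P139.H523

open Vale.Agent.P139.H499

variable {E : Type*} [NormedAddCommGroup E] [NormedSpace ℝ E]
variable {e : ℕ} {A B : ℝ → E →L[ℝ] E} {S : ℝ → E} {U U1 : ℝ → E}

/-- smooth cut-off equal to `1` on `[0, R²]` -/
noncomputable def cut (R : ℝ) : ContDiffBump (0 : ℝ) :=
  ⟨R ^ 2 + 1, R ^ 2 + 2, by positivity, by linarith⟩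

lemma cut_one {R z : ℝ} (hz : z ∈ Icc 0 (R ^ 2)) : cut R z = 1 := by
  apply (cut R).one_of_mem_closedBall
  rw [Metric.mem_closedBall, dist_zero_right, Real.norm_eq_abs, abs_of_nonneg hz.1]
  show z ≤ R ^ 2 + 1
  linarith [hz.2]

/-- Global smooth extension of the local regular solution. -/
theorem LinSys.regular_on [CompleteSpace E] (h : LinSys e A B S U U1) (hA : ContDiff ℝ ∞ A)
    (hB : ContDiff ℝ ∞ B) (hS : ContDiff ℝ ∞ S) {j : ℕ} (hj : j + 2 ≤ e) {C : ℝ}
    (hb : ∀ r ∈ Ioc (0 : ℝ) 1, ‖U r‖ ≤ C / r ^ j) {R : ℝ} (hR : 0 < R) :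
    ∃ Ut : ℝ → E, ContDiff ℝ ∞ Ut ∧ ∀ r ∈ Ioc (0 : ℝ) R, U r = Ut (r ^ 2) := by
  have hC : 0 ≤ C := by
    have := (norm_nonneg _).trans (hb 1 ⟨one_pos, le_rfl⟩)
    simpa using this
  obtain ⟨K, hK0, hK⟩ := exists_coef_bound hA.continuous hB.continuous hS.continuous
  obtain ⟨M, hM0, hM⟩ := h.bounded hK0 hK j hC hj hb
  have hU1 : ∀ r ∈ Ioc (0 : ℝ) 1, ‖U1 r‖ ≤ M * r := by
    intro r hr
    have hr0 := hr.1
    have h1 := (hM r hr).2
    rw [norm_smul, Real.norm_of_nonneg (by positivity)] at h1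
    have h2 : 0 < r ^ e := by positivity
    have h3 : r ^ e * ‖U1 r‖ ≤ r ^ e * (M * r) := by
      calc r ^ e * ‖U1 r‖ ≤ M * r ^ (e + 1) := h1
        _ = _ := by ring
    exact le_of_mul_le_mul_left h3 h2
  -- continuous extensions
  set U1c : ℝ → E := fun s => if s ≤ 0 then 0 else U1 s with hU1c
  have hU1c_pos : ∀ s, 0 < s → U1c s = U1 s := fun s hs => by simp [hU1c, not_le.mpr hs]
  have hU1c_zero : U1c 0 = 0 := by simp [hU1c]
  have hcU1 : Continuous U1c := by
    rw [continuous_iff_continuousAt]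
    intro s
    rcases lt_trichotomy s 0 with hs | hs | hs
    · have : U1c =ᶠ[𝓝 s] fun _ => 0 := by
        filter_upwards [Iio_mem_nhds hs] with x hx
        have hx' : x ≤ 0 := le_of_lt (mem_Iio.mp hx)
        simp only [hU1c, hx', if_true]
      exact (continuousAt_congr this).mpr continuousAt_const
    · subst hs
      rw [ContinuousAt, hU1c_zero, tendsto_zero_iff_norm_tendsto_zero]
      have h1 : Tendsto (fun s : ℝ => M * |s|) (𝓝 0) (𝓝 0) := by
        have : Tendsto (fun s : ℝ => M * |s|) (𝓝 0) (𝓝 (M * |0|)) :=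
          (continuous_const.mul continuous_abs).tendsto 0
        simpa using this
      refine squeeze_zero' (Eventually.of_forall fun r => norm_nonneg _) ?_ h1
      filter_upwards [Iio_mem_nhds (zero_lt_one' ℝ)] with x hx
      by_cases hx0 : x ≤ 0
      · simp only [hU1c, hx0, if_true, norm_zero]; positivity
      · push Not at hx0
        rw [hU1c_pos x hx0, abs_of_pos hx0]
        exact hU1 x ⟨hx0, le_of_lt hx⟩
    · have : U1c =ᶠ[𝓝 s] U1 := by
        filter_upwards [Ioi_mem_nhds hs] with x hx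
        exact hU1c_pos x hx
      exact (continuousAt_congr this).mpr (h.d1 s hs).continuousAt
  set U0 : E := U 1 - ∫ s in (0 : ℝ)..1, U1c s with hU0
  set Uc : ℝ → E := fun r => U0 + ∫ s in (0 : ℝ)..r, U1c s with hUc
  have hcUc : Continuous Uc :=
    continuous_const.add (intervalIntegral.continuous_primitive
      (fun a b => hcU1.intervalIntegrable a b) 0)
  have hUcU : ∀ r, 0 < r → Uc r = U r := by
    intro r hr
    have h1 : ∫ s in (1 : ℝ)..r, U1c s = U r - U 1 := by
      apply intervalIntegral.integral_eq_sub_of_hasDerivAt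
      · intro x hx
        have hx0 : 0 < x := by
          rw [mem_uIcc] at hx
          rcases hx with hx | hx <;> linarith [hx.1]
        rw [hU1c_pos x hx0]
        exact h.d0 x hx0
      · exact hcU1.intervalIntegrable _ _
    have h2 : (∫ s in (0 : ℝ)..1, U1c s) + ∫ s in (1 : ℝ)..r, U1c s = ∫ s in (0 : ℝ)..r, U1c s :=
      intervalIntegral.integral_add_adjacent_intervals (hcU1.intervalIntegrable _ _)
        (hcU1.intervalIntegrable _ _)
    simp only [hUc, hU0, ← h2, h1]
    abel
  set G : ℝ → E := fun s => A (s ^ 2) (Uc s) + B (s ^ 2) (s • U1c s) + S (s ^ 2) with hG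
  have hcG : Continuous G := by
    have hA' := hA.continuous
    have hB' := hB.continuous
    have hS' := hS.continuous
    have c1 : Continuous fun s : ℝ => A (s ^ 2) (Uc s) :=
      (hA'.comp (continuous_pow 2)).clm_apply hcUc
    have c2 : Continuous fun s : ℝ => B (s ^ 2) (s • U1c s) :=
      (hB'.comp (continuous_pow 2)).clm_apply (continuous_id.smul hcU1)
    exact (c1.add c2).add (hS'.comp (continuous_pow 2))
  set g : ℝ → E := fun z => G (Real.sqrt z) with hg
  have hcg : Continuous g := hcG.comp Real.continuous_sqrt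
  have hgsq : ∀ s, 0 ≤ s → g (s ^ 2) = G s := fun s hs => by simp [hg, Real.sqrt_sq hs]
  set V : ℝ → E := avg e g with hV
  have hcV : Continuous V := avg_continuous e hcg
  have hflux : ∀ r, 0 < r → HasDerivAt (fun r : ℝ => r ^ e • U1c r) (r ^ e • G r) r := by
    intro r hr
    have h1 := h.flux hr
    have h2 : (fun r : ℝ => r ^ e • U1c r) =ᶠ[𝓝 r] fun r => r ^ e • U1 r := by
      filter_upwards [Ioi_mem_nhds hr] with x hx
      rw [hU1c_pos x hx]
    refine (h1.congr_of_eventuallyEq h2).congr_deriv ?_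
    simp only [hG, hUcU r hr, hU1c_pos r hr]
  have hW : ∀ r, 0 ≤ r → r ^ (e + 1) • V (r ^ 2) = r ^ e • U1c r := by
    intro r hr
    rw [hV, avg_sq]
    have h1 := intervalIntegral.integral_eq_sub_of_hasDerivAt_of_le hr
      (f := fun r : ℝ => r ^ e • U1c r) (f' := fun s => s ^ e • G s)
      ((continuous_pow e).smul hcU1).continuousOn (fun x hx => hflux x hx.1)
      (((continuous_pow e).smul hcG).intervalIntegrable _ _)
    have h2 : ∫ s in (0 : ℝ)..r, s ^ e • g (s ^ 2) = ∫ s in (0 : ℝ)..r, s ^ e • G s := by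
      apply intervalIntegral.integral_congr
      intro s hs
      rw [uIcc_of_le hr] at hs
      simp only
      rw [hgsq s hs.1]
    rw [h2, h1, hU1c_zero, smul_zero, sub_zero]
  have hradD : ∀ r, 0 ≤ r → radD V r = U1c r := by
    intro r hr
    rcases eq_or_lt_of_le hr with h0 | h0
    · rw [← h0, hU1c_zero]; simp [radD]
    · have h1 := hW r hr
      have h2 := congrArg (fun v => ((r ^ e)⁻¹ : ℝ) • v) h1
      simp only [smul_smul] at h2
      rw [inv_mul_cancel₀ (by positivity), one_smul] at h2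
      rw [← h2, radD]
      congr 1
      rw [pow_succ]
      field_simp
  have hradU : ∀ r, 0 ≤ r → radU U0 V r = Uc r := by
    intro r hr
    have h1 : ∫ s in (0 : ℝ)..r, radD V s = radU U0 V r - radU U0 V 0 := by
      apply intervalIntegral.integral_eq_sub_of_hasDerivAt
      · intro x _
        exact hasDerivAt_radU U0 hcV x
      · exact (continuous_radD hcV).intervalIntegrable _ _
    have h2 : ∫ s in (0 : ℝ)..r, radD V s = ∫ s in (0 : ℝ)..r, U1c s := by
      apply intervalIntegral.integral_congr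
      intro s hs
      rw [uIcc_of_le hr] at hs
      exact hradD s hs.1
    have h3 : radU U0 V 0 = U0 := by simp [radU, prim]
    simp only [hUc]
    rw [← h2, h1, h3]
    abel
  -- the truncated right-hand side
  set χ : ℝ → ℝ := fun z => cut R z with hχ
  have hχs : ContDiff ℝ ∞ χ := (cut R).contDiff
  have hχc : HasCompactSupport χ := (cut R).hasCompactSupport
  set H : ℝ → E → E → E := fun z u p => χ z • (A z u + B z p + S z) with hH
  have hHs : ContDiff ℝ ∞ fun q : ℝ × E × E => H q.1 q.2.1 q.2.2 := by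
    have c1 : ContDiff ℝ ∞ fun q : ℝ × E × E => A q.1 q.2.1 :=
      (hA.comp contDiff_fst).clm_apply (contDiff_fst.comp contDiff_snd)
    have c2 : ContDiff ℝ ∞ fun q : ℝ × E × E => B q.1 q.2.2 :=
      (hB.comp contDiff_fst).clm_apply (contDiff_snd.comp contDiff_snd)
    exact (hχs.comp contDiff_fst).smul ((c1.add c2).add (hS.comp contDiff_fst))
  obtain ⟨a, ha⟩ := (hχs.continuous.smul hA.continuous).bounded_above_of_compact_support
    (hχc.smul_right (f' := A))
  obtain ⟨b, hb'⟩ := (hχs.continuous.smul hB.continuous).bounded_above_of_compact_support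
    (hχc.smul_right (f' := B))
  obtain ⟨c, hc⟩ := (hχs.continuous.smul hS.continuous).bounded_above_of_compact_support
    (hχc.smul_right (f' := S))
  have hLip : ∀ s u p u' p', ‖H s u p - H s u' p'‖ ≤ (|a| + |b|) * (‖u - u'‖ + ‖p - p'‖) := by
    intro s u p u' p'
    have h1 : H s u p - H s u' p' = (χ s • A s) (u - u') + (χ s • B s) (p - p') := by
      simp only [hH, _root_.smul_apply, map_sub]
      module
    rw [h1]
    have h2 : ‖(χ s • A s) (u - u')‖ ≤ |a| * ‖u - u'‖ :=
      (ContinuousLinearMap.le_opNorm _ _).trans (by gcongr; exact (ha s).trans (le_abs_self a))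
    have h3 : ‖(χ s • B s) (p - p')‖ ≤ |b| * ‖p - p'‖ :=
      (ContinuousLinearMap.le_opNorm _ _).trans (by gcongr; exact (hb' s).trans (le_abs_self b))
    have n1 := norm_nonneg (u - u')
    have n2 := norm_nonneg (p - p')
    have n3 := abs_nonneg a
    have n4 := abs_nonneg b
    refine (norm_add_le _ _).trans ?_
    nlinarith [mul_nonneg n3 n2, mul_nonneg n4 n1]
  have hH0 : ∀ s, ‖H s 0 0‖ ≤ |c| := by
    intro s
    have : H s 0 0 = χ s • S s := by simp [hH]
    rw [this]
    exact (hc s).trans (le_abs_self c)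
  have hHc : Continuous fun q : ℝ × E × E => H q.1 q.2.1 q.2.2 := hHs.continuous
  obtain ⟨V', hV'c, hV'r, -⟩ := exists_isReg e hHc (L := |a| + |b|) (B := |c|) (by positivity)
    hLip hH0 U0
  have hreg : IsReg e H U0 V (Icc 0 (R ^ 2)) := by
    apply isReg_of_flux hHc hcV hR
    intro r hr
    have h1 := hflux r hr.1
    have h2 : (fun r : ℝ => r ^ e • radD V r) =ᶠ[𝓝 r] fun r => r ^ e • U1c r := by
      filter_upwards [Ioi_mem_nhds hr.1] with x hx
      rw [hradD x (le_of_lt hx)]
    refine (h1.congr_of_eventuallyEq h2).congr_deriv ?_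
    have h3 : χ (r ^ 2) = 1 := cut_one ⟨by positivity, by have := hr.1; have := hr.2; gcongr⟩
    simp only [hH, hG, h3, one_smul]
    rw [hradD r hr.1.le, hradU r hr.1.le]
  have huniq : ∀ z ∈ Icc 0 (R ^ 2), V z = V' z := by
    have h1 : uIcc 0 (R ^ 2) = Icc 0 (R ^ 2) := uIcc_of_le (by positivity)
    have := IsReg.unique hHc (L := |a| + |b|) (by positivity) (Z := R ^ 2)
      (fun s _ u p u' p' => hLip s u p u' p') hcV hV'c (by rwa [h1])
      (fun z _ => hV'r z (mem_univ z))
    rwa [h1] at this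
  refine ⟨prim U0 V', ?_, ?_⟩
  · rw [contDiff_infty]
    intro n
    have := (hV'r.contDiff hV'c n (hHs.of_le (by exact_mod_cast le_top))).2.1
    exact this.of_le (by exact_mod_cast Nat.le_succ n)
  · intro r hr
    rw [← hUcU r hr.1, ← hradU r hr.1.le, radU, prim, prim]
    congr 2
    apply intervalIntegral.integral_congr
    intro z hz
    rw [uIcc_of_le (by positivity)] at hz
    have hr0 := hr.1
    exact huniq z ⟨hz.1, hz.2.trans (by have := hr.2; gcongr)⟩

/-- **REG0.** A solution on `(0,∞)` of the linear radial system with `U = O(r^{-j})` at `0`,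
`j + 2 ≤ e`, is a smooth function of `r²`. -/
theorem LinSys.regular [CompleteSpace E] (h : LinSys e A B S U U1) (hA : ContDiff ℝ ∞ A)
    (hB : ContDiff ℝ ∞ B) (hS : ContDiff ℝ ∞ S) {j : ℕ} (hj : j + 2 ≤ e) {C : ℝ}
    (hb : ∀ r ∈ Ioc (0 : ℝ) 1, ‖U r‖ ≤ C / r ^ j) :
    ∃ Ut : ℝ → E, ContDiff ℝ ∞ Ut ∧ ∀ r : ℝ, 0 < r → U r = Ut (r ^ 2) := by
  obtain ⟨U0, hU0s, hU0⟩ := h.regular_on hA hB hS hj hb one_pos
  refine ⟨fun z => if z < 1 / 2 then U0 z else U (Real.sqrt z), ?_, ?_⟩
  · rw [contDiff_iff_contDiffAt]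
    intro z
    rcases lt_or_ge z 1 with hz | hz
    · refine hU0s.contDiffAt.congr_of_eventuallyEq ?_
      filter_upwards [Iio_mem_nhds hz] with x hx
      by_cases hx2 : x < 1 / 2
      · simp only [hx2, if_true]
      · simp only [hx2, if_false]
        push Not at hx2
        have hx0 : 0 < Real.sqrt x := Real.sqrt_pos.mpr (by linarith)
        have hx1 : Real.sqrt x ≤ 1 := Real.sqrt_le_one.mpr (le_of_lt hx)
        rw [hU0 _ ⟨hx0, hx1⟩, Real.sq_sqrt (by linarith)]
    · set R := Real.sqrt z + 1 with hR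
      have hR0 : 0 < R := by have := Real.sqrt_nonneg z; linarith
      obtain ⟨UR, hURs, hUR⟩ := h.regular_on hA hB hS hj hb hR0
      refine hURs.contDiffAt.congr_of_eventuallyEq ?_
      have hzR : z < R ^ 2 := by
        have h1 : z = Real.sqrt z ^ 2 := (Real.sq_sqrt (by linarith)).symm
        have h2 := Real.sqrt_nonneg z
        nlinarith
      filter_upwards [Ioo_mem_nhds (show (1 / 2 : ℝ) < z by linarith) hzR] with x hx
      have hx2 : ¬ x < 1 / 2 := not_lt.mpr hx.1.le
      simp only [hx2, if_false]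
      have hx0 : 0 < Real.sqrt x := Real.sqrt_pos.mpr (by linarith [hx.1])
      have hx1 : Real.sqrt x ≤ R := by
        rw [← Real.sqrt_sq hR0.le]
        exact Real.sqrt_le_sqrt hx.2.le
      rw [hUR _ ⟨hx0, hx1⟩, Real.sq_sqrt (by linarith [hx.1])]
  · intro r hr
    by_cases h2 : r ^ 2 < 1 / 2
    · simp only [h2, if_true]
      exact hU0 r ⟨hr, by nlinarith⟩
    · simp only [h2, if_false]
      rw [Real.sqrt_sq hr.le]

end Vale.Agent.P139.H523
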