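import Vale.Agent.P139.BU.Core
import Vale.Agent.P139.H523.Reg1

/-!
# P139 / REG0 : radial pairs of degree `l` bounded near `0` are `r^l` times smooth functions of `r²`
-/

open scoped ComplexConjugate ContDiff Topology
open Complex Set Filter

namespace Vale.Agent.P139.H523

open Vale.Agent.P139.BU

/-- The matrix of the zero order terms. -/
noncomputable def matA (m l : ℕ) (w : ℝ) (h : ℝ → ℂ) (lam : ℂ) (z : ℝ) : ℂ × ℂ →L[ℝ] ℂ × ℂ :=
  ((-(I * ((l : ℂ) / 2 + (aa m : ℂ) - I * w + lam)) + ((m : ℂ) + 1) * W1 m (h z)) •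
      ContinuousLinearMap.fst ℝ ℂ ℂ
    + ((m : ℂ) * W2 m (h z)) • ContinuousLinearMap.snd ℝ ℂ ℂ).prod
  (((m : ℂ) * conj (W2 m (h z))) • ContinuousLinearMap.fst ℝ ℂ ℂ
    + (I * ((l : ℂ) / 2 + (aa m : ℂ) + I * w + lam) + ((m : ℂ) + 1) * W1 m (h z)) •
      ContinuousLinearMap.snd ℝ ℂ ℂ)

/-- The matrix of the first order terms. -/
noncomputable def matB : ℂ × ℂ →L[ℝ] ℂ × ℂ :=
  ((-(I / 2)) • ContinuousLinearMap.fst ℝ ℂ ℂ).prod ((I / 2) • ContinuousLinearMap.snd ℝ ℂ ℂ)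

lemma contDiff_W1 (m : ℕ) {h : ℝ → ℂ} (hh : ContDiff ℝ ∞ h) : ContDiff ℝ ∞ fun z => W1 m (h z) := by
  unfold W1
  exact (hh.mul (Complex.conjCLE.contDiff.comp hh)).pow m

lemma contDiff_W2 (m : ℕ) {h : ℝ → ℂ} (hh : ContDiff ℝ ∞ h) : ContDiff ℝ ∞ fun z => W2 m (h z) := by
  unfold W2
  exact (hh.pow _).mul ((Complex.conjCLE.contDiff.comp hh).pow _)

lemma contDiff_matA (m l : ℕ) (w : ℝ) {h : ℝ → ℂ} (hh : ContDiff ℝ ∞ h) (lam : ℂ) :
    ContDiff ℝ ∞ (matA m l w h lam) := by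
  rw [contDiff_clm_apply_iff]
  rintro ⟨u, v⟩
  have h1 := contDiff_W1 m hh
  have h2 := contDiff_W2 m hh
  have h3 : ContDiff ℝ ∞ fun z => conj (W2 m (h z)) := Complex.conjCLE.contDiff.comp h2
  simp only [matA, ContinuousLinearMap.prod_apply, _root_.add_apply, _root_.smul_apply,
    ContinuousLinearMap.coe_fst', ContinuousLinearMap.coe_snd', smul_eq_mul]
  fun_prop

/-- `(F r^{-l}, G r^{-l})`. -/
noncomputable def redU (l : ℕ) (F G : ℝ → ℂ) (r : ℝ) : ℂ × ℂ :=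
  (F r / (r : ℂ) ^ l, G r / (r : ℂ) ^ l)

/-- its derivative -/
noncomputable def redU1 (l : ℕ) (F G : ℝ → ℂ) (r : ℝ) : ℂ × ℂ :=
  (deriv F r / (r : ℂ) ^ l - l * F r / (r : ℂ) ^ (l + 1),
    deriv G r / (r : ℂ) ^ l - l * G r / (r : ℂ) ^ (l + 1))

lemma hasDerivAt_div_pow {F : ℝ → ℂ} {F' : ℂ} {r : ℝ} (hr : 0 < r) (hF : HasDerivAt F F' r)
    (k : ℕ) :
    HasDerivAt (fun r : ℝ => F r / (r : ℂ) ^ k) (F' / (r : ℂ) ^ k - k * F r / (r : ℂ) ^ (k + 1)) r := by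
  have hr' : (r : ℂ) ≠ 0 := by exact_mod_cast hr.ne'
  have h1 : HasDerivAt (fun r : ℝ => (r : ℂ)) 1 r := Complex.ofRealCLM.hasDerivAt
  have h2 := hF.div (h1.pow k) (pow_ne_zero k hr')
  refine h2.congr_deriv ?_
  rcases k with _ | k
  · simp
  · simp only [Nat.add_sub_cancel, Pi.pow_apply]
    field_simp
    ring

lemma differentiableAt_of_contDiffOn {F : ℝ → ℂ} (hF : ContDiffOn ℝ 2 F (Ioi 0)) {r : ℝ}
    (hr : 0 < r) : DifferentiableAt ℝ F r ∧ DifferentiableAt ℝ (deriv F) r := by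
  have h1 : ContDiffAt ℝ 2 F r := hF.contDiffAt (Ioi_mem_nhds hr)
  refine ⟨h1.differentiableAt (by norm_num), ?_⟩
  have h2 : ContDiffOn ℝ 1 (deriv F) (Ioi 0) :=
    ((contDiffOn_succ_iff_deriv_of_isOpen (n := 1) isOpen_Ioi).mp
      (by simpa [one_add_one_eq_two] using hF)).2.2
  exact (h2.contDiffAt (Ioi_mem_nhds hr)).differentiableAt (by norm_num)

/-- Reduction of the radial system of degree `l` to dimension `d + 2 l`. -/
lemma linSys_of_radial {d m l : ℕ} (hd : 1 ≤ d) {w : ℝ} {q h : ℝ → ℂ}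
    (hq : ∀ r : ℝ, 0 < r → q r = h (r ^ 2)) {lam : ℂ} {F G : ℝ → ℂ}
    (hF : ContDiffOn ℝ 2 F (Ioi 0)) (hG : ContDiffOn ℝ 2 G (Ioi 0)) {s1 s2 : ℝ → ℂ}
    (e1 : ∀ r : ℝ, 0 < r → RL1 d m l w q F G r = lam * F r + (r : ℂ) ^ l * s1 (r ^ 2))
    (e2 : ∀ r : ℝ, 0 < r → RL2 d m l w q F G r = lam * G r + (r : ℂ) ^ l * s2 (r ^ 2)) :
    LinSys (d - 1 + 2 * l) (matA m l w h lam) (fun _ => matB)
      (fun z => (-(I * s1 z), I * s2 z)) (redU l F G) (redU1 l F G) := by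
  constructor
  · intro r hr
    obtain ⟨hF1, -⟩ := differentiableAt_of_contDiffOn hF hr
    obtain ⟨hG1, -⟩ := differentiableAt_of_contDiffOn hG hr
    exact (hasDerivAt_div_pow hr hF1.hasDerivAt l).prodMk (hasDerivAt_div_pow hr hG1.hasDerivAt l)
  · intro r hr
    have hr' : (r : ℂ) ≠ 0 := by exact_mod_cast hr.ne'
    obtain ⟨hF1, hF2⟩ := differentiableAt_of_contDiffOn hF hr
    obtain ⟨hG1, hG2⟩ := differentiableAt_of_contDiffOn hG hr
    have key : ∀ {F : ℝ → ℂ}, DifferentiableAt ℝ F r → DifferentiableAt ℝ (deriv F) r →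
        HasDerivAt (fun r : ℝ => deriv F r / (r : ℂ) ^ l - l * F r / (r : ℂ) ^ (l + 1))
          (lapl d l F r / (r : ℂ) ^ l - (((d - 1 + 2 * l : ℕ) : ℂ) / r) *
            (deriv F r / (r : ℂ) ^ l - l * F r / (r : ℂ) ^ (l + 1))) r := by
      intro F h1 h2
      have h3 := hasDerivAt_div_pow hr h2.hasDerivAt l
      have h4 := (hasDerivAt_div_pow hr h1.hasDerivAt (l + 1)).const_mul (l : ℂ)
      have h5 := (h3.sub h4).congr_of_eventuallyEq (f₁ := fun r : ℝ =>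
        deriv F r / (r : ℂ) ^ l - l * F r / (r : ℂ) ^ (l + 1)) (Eventually.of_forall fun x => by
          simp only [Pi.sub_apply]
          ring)
      refine h5.congr_deriv ?_
      have h7 : ((d - 1 + 2 * l : ℕ) : ℂ) = (d : ℂ) - 1 + 2 * l := by
        push_cast [Nat.cast_sub hd]
        ring
      rw [h7, lapl]
      push_cast
      field_simp
      ring
    have hFk := key hF1 hF2
    have hGk := key hG1 hG2
    refine (hFk.prodMk hGk).congr_deriv ?_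
    have a1 := e1 r hr
    have a2 := e2 r hr
    simp only [RL1, RL2, hq r hr] at a1 a2
    have b1 : lapl d l F r = -I * ((r / 2) * deriv F r + ((aa m : ℂ) - I * w + lam) * F r
        + (r : ℂ) ^ l * s1 (r ^ 2))
        + (((m : ℂ) + 1) * W1 m (h (r ^ 2)) * F r + (m : ℂ) * W2 m (h (r ^ 2)) * G r) := by
      have : lapl d l F r = -I * (I * lapl d l F r) := by
        rw [← mul_assoc]; simp
      rw [this]
      linear_combination (-I) * a1 - (((m : ℂ) + 1) * W1 m (h (r ^ 2)) * F r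
        + (m : ℂ) * W2 m (h (r ^ 2)) * G r) * I_sq
    have b2 : lapl d l G r = I * ((r / 2) * deriv G r + ((aa m : ℂ) + I * w + lam) * G r
        + (r : ℂ) ^ l * s2 (r ^ 2))
        + (((m : ℂ) + 1) * W1 m (h (r ^ 2)) * G r + (m : ℂ) * conj (W2 m (h (r ^ 2))) * F r) := by
      have : lapl d l G r = I * (-(I * lapl d l G r)) := by
        linear_combination (lapl d l G r) * I_sq
      rw [this]
      linear_combination I * a2 - (((m : ℂ) + 1) * W1 m (h (r ^ 2)) * G r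
        + (m : ℂ) * conj (W2 m (h (r ^ 2))) * F r) * I_sq
    ext
    · simp only [matA, matB, redU, redU1, ContinuousLinearMap.prod_apply, _root_.add_apply,
        _root_.smul_apply, ContinuousLinearMap.coe_fst', ContinuousLinearMap.coe_snd', smul_eq_mul,
        Prod.smul_mk, Prod.mk_add_mk, Prod.mk_sub_mk, real_smul]
      rw [b1]
      push_cast
      field_simp
      ring
    · simp only [matA, matB, redU, redU1, ContinuousLinearMap.prod_apply, _root_.add_apply,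
        _root_.smul_apply, ContinuousLinearMap.coe_fst', ContinuousLinearMap.coe_snd', smul_eq_mul,
        Prod.smul_mk, Prod.mk_add_mk, Prod.mk_sub_mk, real_smul]
      rw [b2]
      push_cast
      field_simp
      ring

/-- **REG0 for radial pairs.** -/
theorem radial_pair_regular {d m l : ℕ} (hd : 3 ≤ d) {w : ℝ} {q h : ℝ → ℂ}
    (hh : ContDiff ℝ ∞ h) (hq : ∀ r : ℝ, 0 < r → q r = h (r ^ 2)) {lam : ℂ} {F G : ℝ → ℂ}
    (hF : ContDiffOn ℝ 2 F (Ioi 0)) (hG : ContDiffOn ℝ 2 G (Ioi 0))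
    (hbF : ∃ C : ℝ, ∀ r ∈ Ioo (0 : ℝ) 1, ‖F r‖ ≤ C)
    (hbG : ∃ C : ℝ, ∀ r ∈ Ioo (0 : ℝ) 1, ‖G r‖ ≤ C) {s1 s2 : ℝ → ℂ}
    (hs1 : ContDiff ℝ ∞ s1) (hs2 : ContDiff ℝ ∞ s2)
    (e1 : ∀ r : ℝ, 0 < r → RL1 d m l w q F G r = lam * F r + (r : ℂ) ^ l * s1 (r ^ 2))
    (e2 : ∀ r : ℝ, 0 < r → RL2 d m l w q F G r = lam * G r + (r : ℂ) ^ l * s2 (r ^ 2)) :
    ∃ hF hG : ℝ → ℂ, ContDiff ℝ ∞ hF ∧ ContDiff ℝ ∞ hG ∧
      ∀ r : ℝ, 0 < r → F r = (r : ℂ) ^ l * hF (r ^ 2) ∧ G r = (r : ℂ) ^ l * hG (r ^ 2) := by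
  have hsys := linSys_of_radial (by omega) hq hF hG e1 e2
  obtain ⟨C1, hC1⟩ := hbF
  obtain ⟨C2, hC2⟩ := hbG
  -- bounds on `(0,1]`
  have ext1 : ∀ {F : ℝ → ℂ} {C : ℝ}, ContDiffOn ℝ 2 F (Ioi 0) → (∀ r ∈ Ioo (0 : ℝ) 1, ‖F r‖ ≤ C) →
      ∀ r ∈ Ioc (0 : ℝ) 1, ‖F r‖ ≤ |C| := by
    intro F C hF hC r hr
    rcases lt_or_eq_of_le hr.2 with h1 | h1
    · exact (hC r ⟨hr.1, h1⟩).trans (le_abs_self C)
    · have hc : ContinuousAt F 1 := (differentiableAt_of_contDiffOn hF one_pos).1.continuousAt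
      have h2 : Tendsto (fun r => ‖F r‖) (𝓝[<] 1) (𝓝 ‖F 1‖) :=
        (hc.norm.tendsto).mono_left nhdsWithin_le_nhds
      rw [h1]
      refine le_of_tendsto h2 ?_
      have : Ioo (0 : ℝ) 1 ∈ 𝓝[<] (1 : ℝ) := Ioo_mem_nhdsLT one_pos
      filter_upwards [this] with x hx
      exact (hC x hx).trans (le_abs_self C)
  have hb : ∀ r ∈ Ioc (0 : ℝ) 1, ‖redU l F G r‖ ≤ (|C1| + |C2|) / r ^ l := by
    intro r hr
    have hr0 := hr.1
    have n1 := abs_nonneg C1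
    have n2 := abs_nonneg C2
    have k1 := ext1 hF hC1 r hr
    have k2 := ext1 hG hC2 r hr
    rw [redU, Prod.norm_def]
    simp only [norm_div, norm_pow, Complex.norm_real, Real.norm_of_nonneg hr0.le]
    apply max_le
    · gcongr; linarith
    · gcongr; linarith
  obtain ⟨Ut, hUt, hU⟩ := hsys.regular (contDiff_matA m l w hh lam) contDiff_const
    ((contDiff_const.mul hs1).neg.prodMk (contDiff_const.mul hs2)) (j := l) (by omega) hb
  refine ⟨fun z => (Ut z).1, fun z => (Ut z).2, hUt.fst, hUt.snd, fun r hr => ?_⟩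
  have hr' : (r : ℂ) ≠ 0 := by exact_mod_cast hr.ne'
  have h1 := hU r hr
  simp only [redU] at h1
  have h2 := congrArg Prod.fst h1
  have h3 := congrArg Prod.snd h1
  simp only at h2 h3
  constructor
  · simp only [← h2]; field_simp
  · simp only [← h3]; field_simp

end Vale.Agent.P139.H523
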