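import Vale.Agent.P139.H523.X2c

/-!
# P139 / X2 : final form for mode pairs (homogeneous and with a Jordan source)
-/

open scoped ComplexConjugate ContDiff Topology
open Complex Set Filter

namespace Vale.Agent.P139.H523

open Vale.Agent.P139.BU
open Vale.Agent.P139.H901 (WS)
open Vale.Agent.P139.H201 (WienerRep nd)

variable {d m l : ℕ} {w : ℝ} {Q : E d → ℂ} {q : ℝ → ℂ} {lam : ℂ}

lemma contDiff_conj_comp {h : ℝ → ℂ} (hh : ContDiff ℝ ∞ h) :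
    ContDiff ℝ ∞ (fun z => conj (h z)) :=
  (Complex.conjCLE.contDiff (n := ∞)).comp hh

/-- The radial profile is a smooth function of `r²`. -/
lemma profile_form (hd : 1 ≤ d) (hP : IsProfile d m w Q) (hq : ∀ x, Q x = q ‖x‖) :
    ∃ h : ℝ → ℂ, ContDiff ℝ ∞ h ∧ ∀ r : ℝ, 0 ≤ r → q r = h (r ^ 2) := by
  obtain ⟨h, hh, hQ⟩ := hP.radial
  refine ⟨h, hh, fun r hr => ?_⟩
  have e1 : ‖(EuclideanSpace.single (⟨0, hd⟩ : Fin d) r : E d)‖ = r := by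
    simp [abs_of_nonneg hr]
  rw [← e1, ← hq, hQ, e1]

lemma profile_form_deriv {h : ℝ → ℂ} (hh : ContDiff ℝ ∞ h)
    (hq : ∀ r : ℝ, 0 ≤ r → q r = h (r ^ 2)) {r : ℝ} (hr : 0 < r) :
    deriv q r = 2 * r * deriv h (r ^ 2) := by
  have hev : q =ᶠ[𝓝 r] fun r : ℝ => (r : ℂ) ^ 0 * h (r ^ 2) := by
    filter_upwards [Ioi_mem_nhds hr] with x hx
    rw [hq x (le_of_lt hx)]
    simp
  rw [hev.deriv_eq, (hasDerivAt_rpow_mul (l := 0) hh hr).deriv]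
  simp

/-- Symmetry modes have the form `r^l s(r²)`. -/
theorem radMode_form (hd : 1 ≤ d) (hP : IsProfile d m w Q) (hq : ∀ x, Q x = q ‖x‖)
    {F0 G0 : ℝ → ℂ} (h : RadMode m l w q lam F0 G0) :
    ∃ s1 s2 : ℝ → ℂ, ContDiff ℝ ∞ s1 ∧ ContDiff ℝ ∞ s2 ∧
      (∀ r : ℝ, 0 < r → F0 r = (r : ℂ) ^ l * s1 (r ^ 2)) ∧
      (∀ r : ℝ, 0 < r → G0 r = (r : ℂ) ^ l * s2 (r ^ 2)) := by
  obtain ⟨u, hu, hqu⟩ := profile_form hd hP hq
  have hu' := contDiff_infty_deriv hu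
  have hdq : ∀ r : ℝ, 0 < r → deriv q r = 2 * r * deriv u (r ^ 2) :=
    fun r hr => profile_form_deriv hu hqu hr
  have key : ∀ (g : ℝ → ℂ) (c : ℂ) (s : ℝ → ℂ), ContDiff ℝ ∞ s →
      (∀ r : ℝ, 0 < r → g r = (r : ℂ) ^ l * s (r ^ 2)) →
      (∀ r > 0, F0 r = c * g r ∧ G0 r = c * conj (g r)) →
      ∃ s1 s2 : ℝ → ℂ, ContDiff ℝ ∞ s1 ∧ ContDiff ℝ ∞ s2 ∧
      (∀ r : ℝ, 0 < r → F0 r = (r : ℂ) ^ l * s1 (r ^ 2)) ∧
      (∀ r : ℝ, 0 < r → G0 r = (r : ℂ) ^ l * s2 (r ^ 2)) := by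
    intro g c s hs hg hc
    refine ⟨fun z => c * s z, fun z => c * conj (s z), contDiff_const.mul hs,
      contDiff_const.mul (contDiff_conj_comp hs), fun r hr => ?_, fun r hr => ?_⟩
    · rw [(hc r hr).1, hg r hr]
      ring
    · rw [(hc r hr).2, hg r hr, map_mul, map_pow, conj_ofReal]
      ring
  rcases h with ⟨h0, -, c, h⟩ | ⟨h0, -, c, h⟩ | ⟨h0, -, c, h⟩ | h
  · refine key (fun r => I * q r) c (fun z => I * u z) (contDiff_const.mul hu) (fun r hr => ?_) h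
    rw [h0, hqu r hr.le, pow_zero, one_mul]
  · refine key (fun r => deriv q r) c (fun z => 2 * deriv u z) (contDiff_const.mul hu')
      (fun r hr => ?_) h
    rw [h0, hdq r hr, pow_one]
    ring
  · refine key (fun r => ((aa m : ℂ) - I * (w : ℂ)) * q r + (r / 2) * deriv q r) c
      (fun z => ((aa m : ℂ) - I * (w : ℂ)) * u z + (z : ℂ) * deriv u z)
      ((contDiff_const.mul hu).add (ofRealCLM.contDiff.mul hu')) (fun r hr => ?_) h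
    rw [h0, hdq r hr, hqu r hr.le, pow_zero, one_mul]
    push_cast
    ring
  · refine ⟨fun _ => 0, fun _ => 0, contDiff_const, contDiff_const, fun r hr => ?_,
      fun r hr => ?_⟩
    · rw [(h r hr).1, mul_zero]
    · rw [(h r hr).2, mul_zero]

/-- Everything X2 says about a pair `(F, G) = (r^l hF(r²), r^l hG(r²))`: the pair
`(modeFn hF P, modeFn hG P)` is smooth, Wiener with its first derivatives and its Euler
derivative, and solves the equation pointwise. -/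
structure X2Out (d m l J : ℕ) (w : ℝ) (Q : E d → ℂ) (lam : ℂ) (F G s1 s2 hF hG : ℝ → ℂ) :
    Prop where
  sF : ContDiff ℝ ∞ hF
  sG : ContDiff ℝ ∞ hG
  eF : ∀ r : ℝ, 0 < r → F r = (r : ℂ) ^ l * hF (r ^ 2)
  eG : ∀ r : ℝ, 0 < r → G r = (r : ℂ) ^ l * hG (r ^ 2)
  cF : ContDiffOn ℝ ∞ F (Ioi 0)
  cG : ContDiffOn ℝ ∞ G (Ioi 0)
  wF : WS 1 (aa m) (J - 1) F
  wG : WS 1 (aa m) (J - 1) G
  eq1 : ∀ P : E d → ℂ, HarmP l P → ∀ x,
    LL1 m w Q (modeFn hF P) (modeFn hG P) x = lam * modeFn hF P x + modeFn s1 P x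
  eq2 : ∀ P : E d → ℂ, HarmP l P → ∀ x,
    LL2 m w Q (modeFn hF P) (modeFn hG P) x = lam * modeFn hG P x + modeFn s2 P x
  smooth1 : ∀ P : E d → ℂ, HarmP l P → ContDiff ℝ ∞ (modeFn hF P)
  smooth2 : ∀ P : E d → ℂ, HarmP l P → ContDiff ℝ ∞ (modeFn hG P)
  wien1 : ∀ P : E d → ℂ, HarmP l P → ∀ s : ℕ, nd (E d) s + 2 ≤ J →
    ∃ C : ℝ, WienerRep s (modeFn hF P) C
  wien2 : ∀ P : E d → ℂ, HarmP l P → ∀ s : ℕ, nd (E d) s + 2 ≤ J →
    ∃ C : ℝ, WienerRep s (modeFn hG P) C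
  eul1 : ∀ P : E d → ℂ, HarmP l P → ∀ s : ℕ, nd (E d) s + 2 ≤ J →
    ∃ C : ℝ, WienerRep s (eul (modeFn hF P)) C
  eul2 : ∀ P : E d → ℂ, HarmP l P → ∀ s : ℕ, nd (E d) s + 2 ≤ J →
    ∃ C : ℝ, WienerRep s (eul (modeFn hG P)) C
  pd1 : ∀ P : E d → ℂ, HarmP l P → ∀ s : ℕ, nd (E d) s + 2 ≤ J → ∀ j,
    ∃ C : ℝ, WienerRep s (pd j (modeFn hF P)) C
  pd2 : ∀ P : E d → ℂ, HarmP l P → ∀ s : ℕ, nd (E d) s + 2 ≤ J → ∀ j,
    ∃ C : ℝ, WienerRep s (pd j (modeFn hG P)) C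

lemma contDiffOn_rpow_mul {s : ℝ → ℂ} (hs : ContDiff ℝ ∞ s) (l : ℕ) :
    ContDiff ℝ ∞ (fun r : ℝ => (r : ℂ) ^ l * s (r ^ 2)) :=
  (ofRealCLM.contDiff.pow l).mul (hs.comp (contDiff_id.pow 2))

/-- **X2** for a pair with source `r^l s_i(r²)`, the sources decaying with weight `2 aa m`. -/
theorem mode_pair (hd : 3 ≤ d) (hm : 1 ≤ m) (hP : IsProfile d m w Q) (hq : ∀ x, Q x = q ‖x‖)
    (hlam : 0 ≤ lam.re) {K J : ℕ} {F G : ℝ → ℂ} (hF : RadAdm K F) (hG : RadAdm K G)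
    (hJ : 2 ≤ J) (hK : 2 * J ≤ K) {s1 s2 : ℝ → ℂ} (hs1 : ContDiff ℝ ∞ s1)
    (hs2 : ContDiff ℝ ∞ s2)
    (hw1 : ∀ J, WS 1 (2 * aa m) J (fun r : ℝ => (r : ℂ) ^ l * s1 (r ^ 2)))
    (hw2 : ∀ J, WS 1 (2 * aa m) J (fun r : ℝ => (r : ℂ) ^ l * s2 (r ^ 2)))
    (e1 : ∀ r > 0, RL1 d m l w q F G r = lam * F r + (r : ℂ) ^ l * s1 (r ^ 2))
    (e2 : ∀ r > 0, RL2 d m l w q F G r = lam * G r + (r : ℂ) ^ l * s2 (r ^ 2)) :
    ∃ hF hG : ℝ → ℂ, X2Out d m l J w Q lam F G s1 s2 hF hG := by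
  have : NeZero d := ⟨by omega⟩
  obtain ⟨u, hu, hqu⟩ := profile_form (by omega) hP hq
  obtain ⟨cF, cG, wF, wG⟩ := Vale.Agent.P139.H901.radial_decay (l := l) hm hP hq hlam hF hG hJ hK
    (contDiffOn_rpow_mul hs1 l).contDiffOn (contDiffOn_rpow_mul hs2 l).contDiffOn hw1 hw2 e1 e2
  have hcF : ContDiffOn ℝ 2 F (Ioi 0) := cF.of_le (by norm_cast)
  have hcG : ContDiffOn ℝ 2 G (Ioi 0) := cG.of_le (by norm_cast)
  obtain ⟨hF', hG', sF, sG, hFG⟩ := radial_pair_regular (m := m) (l := l) (w := w) (q := q)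
    (lam := lam) hd hu (fun r hr => hqu r hr.le) hcF hcG hF.bdd0 hG.bdd0 hs1 hs2 e1 e2
  have eF : ∀ r : ℝ, 0 < r → F r = (r : ℂ) ^ l * hF' (r ^ 2) := fun r hr => (hFG r hr).1
  have eG : ∀ r : ℝ, 0 < r → G r = (r : ℂ) ^ l * hG' (r ^ 2) := fun r hr => (hFG r hr).2
  have hQc : Continuous Q := by
    obtain ⟨h, hh, hQ⟩ := hP.radial
    have : Q = fun x => h (‖x‖ ^ 2) := funext hQ
    rw [this]
    exact hh.continuous.comp (continuous_norm.pow 2)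
  have ha := Vale.Agent.P139.H901.aa_pos hm
  have hLL := fun (P : E d → ℂ) (hPP : HarmP l P) (x : E d) =>
    LL_modeFn (m := m) (w := w) (lam := lam) (by omega : 1 ≤ d) hQc hq sF sG eF eG hs1 hs2 e1 e2
      hPP x
  refine ⟨hF', hG', ⟨sF, sG, eF, eG, cF, cG, wF, wG, fun P hPP x => (hLL P hPP x).1,
    fun P hPP x => (hLL P hPP x).2, fun P hPP => contDiff_modeFn sF hPP.toHomP,
    fun P hPP => contDiff_modeFn sG hPP.toHomP, ?_, ?_, ?_, ?_, ?_, ?_⟩⟩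
  · exact fun P hPP s hs => modeFn_wiener ha (by omega : nd (E d) s ≤ J - 1) sF eF wF hPP.toHomP
  · exact fun P hPP s hs => modeFn_wiener ha (by omega : nd (E d) s ≤ J - 1) sG eG wG hPP.toHomP
  · exact fun P hPP s hs =>
      modeFn_eul_wiener ha (by omega : nd (E d) s + 1 ≤ J - 1) sF eF wF hPP.toHomP
  · exact fun P hPP s hs =>
      modeFn_eul_wiener ha (by omega : nd (E d) s + 1 ≤ J - 1) sG eG wG hPP.toHomP
  · exact fun P hPP s hs j =>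
      modeFn_pd_wiener ha (by omega : nd (E d) s + 1 ≤ J - 1) sF eF wF hPP.toHomP j
  · exact fun P hPP s hs j =>
      modeFn_pd_wiener ha (by omega : nd (E d) s + 1 ≤ J - 1) sG eG wG hPP.toHomP j

/-- **X2, homogeneous case.** -/
theorem mode_pair_hom (hd : 3 ≤ d) (hm : 1 ≤ m) (hP : IsProfile d m w Q)
    (hq : ∀ x, Q x = q ‖x‖) (hlam : 0 ≤ lam.re) {K J : ℕ} {F G : ℝ → ℂ} (hF : RadAdm K F)
    (hG : RadAdm K G) (hJ : 2 ≤ J) (hK : 2 * J ≤ K)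
    (e1 : ∀ r > 0, RL1 d m l w q F G r = lam * F r)
    (e2 : ∀ r > 0, RL2 d m l w q F G r = lam * G r) :
    ∃ hF hG : ℝ → ℂ, X2Out d m l J w Q lam F G (fun _ => 0) (fun _ => 0) hF hG := by
  have hz : ∀ J, WS 1 (2 * aa m) J (fun r : ℝ => (r : ℂ) ^ l * (fun _ : ℝ => (0 : ℂ)) (r ^ 2)) := by
    intro J
    have : NeZero d := ⟨by omega⟩
    refine (((Vale.Agent.P139.H901.profile_radial hP hq).2 J).const_mul 0).congr fun r _ => ?_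
    rw [zero_mul, mul_zero]
  refine mode_pair hd hm hP hq hlam hF hG hJ hK contDiff_const contDiff_const hz hz ?_ ?_
  · intro r hr
    rw [e1 r hr, mul_zero, add_zero]
  · intro r hr
    rw [e2 r hr, mul_zero, add_zero]

/-- **X2, Jordan case**: the source is a symmetry mode. -/
theorem mode_pair_jordan (hd : 3 ≤ d) (hm : 1 ≤ m) (hP : IsProfile d m w Q)
    (hq : ∀ x, Q x = q ‖x‖) (hlam : 0 ≤ lam.re) {K J : ℕ} {F G F0 G0 : ℝ → ℂ}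
    (hF : RadAdm K F) (hG : RadAdm K G) (hJ : 2 ≤ J) (hK : 2 * J ≤ K)
    (h0 : RadMode m l w q lam F0 G0)
    (e1 : ∀ r > 0, RL1 d m l w q F G r = lam * F r + F0 r)
    (e2 : ∀ r > 0, RL2 d m l w q F G r = lam * G r + G0 r) :
    ∃ s1 s2 : ℝ → ℂ, ContDiff ℝ ∞ s1 ∧ ContDiff ℝ ∞ s2 ∧
      (∀ r : ℝ, 0 < r → F0 r = (r : ℂ) ^ l * s1 (r ^ 2)) ∧
      (∀ r : ℝ, 0 < r → G0 r = (r : ℂ) ^ l * s2 (r ^ 2)) ∧
      ∃ hF hG : ℝ → ℂ, X2Out d m l J w Q lam F G s1 s2 hF hG := by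
  have : NeZero d := ⟨by omega⟩
  obtain ⟨s1, s2, hs1, hs2, f1, f2⟩ := radMode_form (by omega) hP hq h0
  obtain ⟨-, -, k1, k2⟩ := Vale.Agent.P139.H901.RadMode.source hP hq h0
  refine ⟨s1, s2, hs1, hs2, f1, f2, mode_pair hd hm hP hq hlam hF hG hJ hK hs1 hs2
    (fun J => (k1 J).congr fun r hr => f1 r (zero_lt_one.trans hr))
    (fun J => (k2 J).congr fun r hr => f2 r (zero_lt_one.trans hr)) ?_ ?_⟩
  · intro r hr
    rw [e1 r hr, f1 r hr]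
  · intro r hr
    rw [e2 r hr, f2 r hr]

end Vale.Agent.P139.H523
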