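import Vale.Agent.P139.BU.Core

/-!
# P139 / X2 : mode functions `h(|y|^2) P(y)`, `P` harmonic homogeneous of degree `l`

Differential identities (block X2, helper523).
-/

open scoped ComplexConjugate ContDiff Topology
open Complex Set Filter

namespace Vale.Agent.P139.H523

open Vale.Agent.P139.BU

variable {d : ℕ}

/-- Smooth, homogeneous of degree `l`. -/
structure HomP (l : ℕ) (P : E d → ℂ) : Prop where
  smooth : ContDiff ℝ ∞ P
  hom : ∀ (t : ℝ) (x : E d), P (t • x) = (t : ℂ) ^ l * P x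

/-- Smooth, homogeneous of degree `l` and harmonic. -/
structure HarmP (l : ℕ) (P : E d → ℂ) : Prop extends HomP l P where
  harm : ∀ x, lap P x = 0

/-- The mode function. -/
noncomputable def modeFn (h : ℝ → ℂ) (P : E d → ℂ) (y : E d) : ℂ := h (‖y‖ ^ 2) * P y

lemma pd_eq {f : E d → ℂ} {x : E d} {f' : E d →L[ℝ] ℂ} (h : HasFDerivAt f f' x) (j : Fin d) :
    pd j f x = f' (EuclideanSpace.single j (1 : ℝ)) := by
  rw [pd, h.fderiv]

lemma inner_single (x : E d) (j : Fin d) :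
    inner ℝ x (EuclideanSpace.single j (1 : ℝ)) = x j := by
  rw [EuclideanSpace.inner_single_right]
  simp

lemma sum_sq (x : E d) : ∑ j, x j ^ 2 = ‖x‖ ^ 2 := by
  rw [EuclideanSpace.norm_sq_eq]
  simp

/-- A linear map applied to `x` is the sum over the coordinates. -/
lemma clm_sum (L : E d →L[ℝ] ℂ) (x : E d) :
    L x = ∑ j, (x j : ℂ) * L (EuclideanSpace.single j (1 : ℝ)) := by
  have hx : x = ∑ j, x j • (EuclideanSpace.single j (1 : ℝ) : E d) := by
    ext i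
    simp [Pi.single_apply]
  conv_lhs => rw [hx]
  rw [map_sum]
  refine Finset.sum_congr rfl fun j _ => ?_
  rw [map_smul, Complex.real_smul]

lemma eul_eq_sum (f : E d → ℂ) (x : E d) : eul f x = ∑ j, (x j : ℂ) * pd j f x :=
  clm_sum _ _

lemma HomP.eul {l : ℕ} {P : E d → ℂ} (hP : HomP l P) (x : E d) : eul P x = l * P x := by
  have h1 : HasFDerivAt P (fderiv ℝ P x) ((1 : ℝ) • x) := by
    rw [one_smul]
    exact (hP.smooth.differentiable (by simp)).differentiableAt.hasFDerivAt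
  have h2 : HasDerivAt (fun t : ℝ => t • x) x 1 := by
    simpa using (hasDerivAt_id (1 : ℝ)).smul_const x
  have h3 : HasDerivAt (fun t : ℝ => P (t • x)) (fderiv ℝ P x x) 1 :=
    h1.comp_hasDerivAt (1 : ℝ) h2
  have h4 : HasDerivAt (fun t : ℝ => (t : ℂ) ^ l * P x) ((l : ℂ) * (1 : ℂ) ^ (l - 1) * P x) 1 := by
    have h5 : HasDerivAt (fun t : ℝ => (t : ℂ)) 1 (1 : ℝ) := Complex.ofRealCLM.hasDerivAt
    have := (h5.pow l).mul_const (P x)
    simpa using this
  have h6 : (fun t : ℝ => P (t • x)) = fun t : ℝ => (t : ℂ) ^ l * P x := by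
    funext t
    exact hP.hom t x
  rw [h6] at h3
  have := h3.unique h4
  rw [BU.eul, this]
  simp

/-- Derivative of the radial factor. -/
lemma hasFDerivAt_radial {h : ℝ → ℂ} {h' : ℂ} {x : E d} (hh : HasDerivAt h h' (‖x‖ ^ 2)) :
    HasFDerivAt (fun y : E d => h (‖y‖ ^ 2))
      ((2 : ℝ) • (innerSL ℝ x).smulRight h') x := by
  have h1 := (hasStrictFDerivAt_norm_sq x).hasFDerivAt
  have h2 := hh.hasFDerivAt.comp x h1
  refine h2.congr_fderiv ?_
  ext y
  simp [two_smul]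

lemma pd_radial {h : ℝ → ℂ} {h' : ℂ} {x : E d} (hh : HasDerivAt h h' (‖x‖ ^ 2)) (j : Fin d) :
    pd j (fun y : E d => h (‖y‖ ^ 2)) x = 2 * (x j : ℂ) * h' := by
  rw [pd_eq (hasFDerivAt_radial hh)]
  simp [inner_single]
  ring

lemma pd_mul {f g : E d → ℂ} {x : E d} (hf : DifferentiableAt ℝ f x)
    (hg : DifferentiableAt ℝ g x) (j : Fin d) :
    pd j (fun y => f y * g y) x = pd j f x * g x + f x * pd j g x := by
  have h : HasFDerivAt (fun y => f y * g y) (f x • fderiv ℝ g x + g x • fderiv ℝ f x) x :=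
    hf.hasFDerivAt.mul hg.hasFDerivAt
  rw [pd_eq h]
  simp [pd]
  ring

lemma pd_add {f g : E d → ℂ} {x : E d} (hf : DifferentiableAt ℝ f x)
    (hg : DifferentiableAt ℝ g x) (j : Fin d) :
    pd j (fun y => f y + g y) x = pd j f x + pd j g x := by
  have h : HasFDerivAt (fun y => f y + g y) (fderiv ℝ f x + fderiv ℝ g x) x :=
    hf.hasFDerivAt.add hg.hasFDerivAt
  rw [pd_eq h]
  simp [pd]

lemma pd_congr {f g : E d → ℂ} {x : E d} (h : f =ᶠ[𝓝 x] g) (j : Fin d) : pd j f x = pd j g x := by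
  rw [pd, pd, h.fderiv_eq]

lemma pd_coord (x : E d) (j : Fin d) : pd j (fun y : E d => (y j : ℂ)) x = 1 := by
  have h1 : HasFDerivAt (fun y : E d => (y j : ℂ))
      (Complex.ofRealCLM.comp (EuclideanSpace.proj j : E d →L[ℝ] ℝ)) x :=
    (Complex.ofRealCLM.comp (EuclideanSpace.proj j : E d →L[ℝ] ℝ)).hasFDerivAt
  rw [pd_eq h1]
  simp

lemma differentiableAt_coord (x : E d) (j : Fin d) :
    DifferentiableAt ℝ (fun y : E d => (y j : ℂ)) x :=
  (Complex.ofRealCLM.comp (EuclideanSpace.proj j : E d →L[ℝ] ℝ)).differentiableAt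

/-- First derivative of a mode function. -/
lemma pd_modeFn {h : ℝ → ℂ} {h' : ℂ} {P : E d → ℂ} {x : E d}
    (hh : HasDerivAt h h' (‖x‖ ^ 2)) (hP : DifferentiableAt ℝ P x) (j : Fin d) :
    pd j (modeFn h P) x = 2 * (x j : ℂ) * h' * P x + h (‖x‖ ^ 2) * pd j P x := by
  unfold modeFn
  rw [pd_mul (hasFDerivAt_radial hh).differentiableAt hP, pd_radial hh]

lemma differentiableAt_modeFn {h : ℝ → ℂ} {h' : ℂ} {P : E d → ℂ} {x : E d}
    (hh : HasDerivAt h h' (‖x‖ ^ 2)) (hP : DifferentiableAt ℝ P x) :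
    DifferentiableAt ℝ (modeFn h P) x :=
  (hasFDerivAt_radial hh).differentiableAt.mul hP

/-- Euler operator on a mode function. -/
lemma eul_modeFn {h : ℝ → ℂ} {h' : ℂ} {P : E d → ℂ} {x : E d} {l : ℕ}
    (hh : HasDerivAt h h' (‖x‖ ^ 2)) (hP : HomP l P) :
    eul (modeFn h P) x = (2 * (‖x‖ ^ 2 : ℝ) * h' + l * h (‖x‖ ^ 2)) * P x := by
  rw [eul_eq_sum]
  have hd : DifferentiableAt ℝ P x := (hP.smooth.differentiable (by simp)).differentiableAt
  have h1 : ∀ j, (x j : ℂ) * pd j (modeFn h P) x =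
      (2 * h' * P x) * ((x j ^ 2 : ℝ) : ℂ) + h (‖x‖ ^ 2) * ((x j : ℂ) * pd j P x) := by
    intro j
    rw [pd_modeFn hh hd]
    push_cast
    ring
  simp_rw [h1]
  rw [Finset.sum_add_distrib, ← Finset.mul_sum, ← Finset.mul_sum, ← eul_eq_sum, hP.eul,
    ← Complex.ofReal_sum, sum_sq]
  ring

lemma contDiff_pd {f : E d → ℂ} (hf : ContDiff ℝ ∞ f) (j : Fin d) : ContDiff ℝ ∞ (pd j f) := by
  unfold pd
  exact (hf.fderiv_right (m := ∞) (by simp)).clm_apply contDiff_const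

/-- Laplacian of a mode function. -/
lemma lap_modeFn {h h' : ℝ → ℂ} {h'' : ℂ} {P : E d → ℂ} {x : E d} {l : ℕ}
    (hh : ∀ᶠ z in 𝓝 (‖x‖ ^ 2), HasDerivAt h (h' z) z) (hh' : HasDerivAt h' h'' (‖x‖ ^ 2))
    (hP : HarmP l P) :
    lap (modeFn h P) x =
      (4 * (‖x‖ ^ 2 : ℝ) * h'' + (2 * d + 4 * l) * h' (‖x‖ ^ 2)) * P x := by
  have hPd : ∀ y, DifferentiableAt ℝ P y := fun y =>
    (hP.smooth.differentiable (by simp)).differentiableAt
  have hPdd : ∀ j y, DifferentiableAt ℝ (pd j P) y := fun j y =>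
    ((contDiff_pd hP.smooth j).differentiable (by simp)).differentiableAt
  have hcont : Tendsto (fun y : E d => ‖y‖ ^ 2) (𝓝 x) (𝓝 (‖x‖ ^ 2)) :=
    (continuous_norm.pow 2).continuousAt
  have hev : ∀ᶠ y in 𝓝 x, HasDerivAt h (h' (‖y‖ ^ 2)) (‖y‖ ^ 2) := hcont.eventually hh
  have hhx : HasDerivAt h (h' (‖x‖ ^ 2)) (‖x‖ ^ 2) := hev.self_of_nhds
  have key : ∀ j, pd j (pd j (modeFn h P)) x =
      (4 * h'' * P x) * ((x j ^ 2 : ℝ) : ℂ) + 2 * h' (‖x‖ ^ 2) * P x
        + 4 * h' (‖x‖ ^ 2) * ((x j : ℂ) * pd j P x) + h (‖x‖ ^ 2) * pd j (pd j P) x := by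
    intro j
    have hc : pd j (modeFn h P) =ᶠ[𝓝 x] fun y =>
        (2 * ((y j : ℂ) * (h' (‖y‖ ^ 2) * P y))) + h (‖y‖ ^ 2) * pd j P y := by
      filter_upwards [hev] with y hy
      rw [pd_modeFn hy (hPd y)]
      ring
    rw [pd_congr hc]
    have d1 : DifferentiableAt ℝ (fun y : E d => h' (‖y‖ ^ 2)) x :=
      (hasFDerivAt_radial hh').differentiableAt
    have d2 : DifferentiableAt ℝ (fun y : E d => h' (‖y‖ ^ 2) * P y) x := d1.mul (hPd x)
    have d3 : DifferentiableAt ℝ (fun y : E d => (y j : ℂ) * (h' (‖y‖ ^ 2) * P y)) x :=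
      (differentiableAt_coord x j).mul d2
    have d4 : DifferentiableAt ℝ (fun y : E d => h (‖y‖ ^ 2)) x :=
      (hasFDerivAt_radial hhx).differentiableAt
    have d5 : DifferentiableAt ℝ (fun y : E d => 2 * ((y j : ℂ) * (h' (‖y‖ ^ 2) * P y))) x :=
      (differentiableAt_const (2 : ℂ)).mul d3
    have d6 : DifferentiableAt ℝ (fun y : E d => h (‖y‖ ^ 2) * pd j P y) x := d4.mul (hPdd j x)
    have hc0 : pd j (fun _ : E d => (2 : ℂ)) x = 0 := by
      rw [pd_eq (hasFDerivAt_const (2 : ℂ) x)]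
      simp
    rw [pd_add d5 d6, pd_mul (differentiableAt_const (2 : ℂ)) d3,
      pd_mul (differentiableAt_coord x j) d2,
      pd_mul d1 (hPd x), pd_mul d4 (hPdd j x), pd_radial hh', pd_radial hhx, pd_coord, hc0]
    push_cast
    ring
  unfold lap
  simp_rw [key]
  have hlap : ∑ j, pd j (pd j P) x = 0 := hP.harm x
  have hsq : ∑ j, ((x j ^ 2 : ℝ) : ℂ) = ((‖x‖ ^ 2 : ℝ) : ℂ) := by
    rw [← Complex.ofReal_sum, sum_sq]
  have heul : ∑ j, (x j : ℂ) * pd j P x = l * P x := by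
    rw [← eul_eq_sum, hP.toHomP.eul]
  rw [Finset.sum_add_distrib, Finset.sum_add_distrib, Finset.sum_add_distrib, ← Finset.mul_sum,
    ← Finset.mul_sum, ← Finset.mul_sum, ← Finset.mul_sum, heul, hsq, hlap]
  simp only [Finset.sum_const, Finset.card_univ, Fintype.card_fin, nsmul_eq_mul]
  ring

end Vale.Agent.P139.H523
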