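import Vale.Agent.P225.Bdl.B2
import Vale.Agent.P139.H523.X2a

/-!
# P139 / X2 : harmonic polynomials of P225 are `HarmP`
-/

open scoped ComplexConjugate ContDiff Topology
open Complex Set Filter

namespace Vale.Agent.P139.H523

open Vale.Agent.P139.BU
open Vale.Agent.P225 (pev plap Harm pev_contDiff pev_fderiv pev_smul)

variable {d : ℕ}

lemma pd_pevC (p : MvPolynomial (Fin d) ℝ) (j : Fin d) (x : E d) :
    pd j (fun y : E d => (pev p y : ℂ)) x = (pev (MvPolynomial.pderiv j p) x : ℂ) := by
  have h1 : HasFDerivAt (pev p) (fderiv ℝ (pev p) x) x :=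
    ((pev_contDiff p (k := 1)).differentiable (by simp) x).hasFDerivAt
  have h2 : HasFDerivAt (fun y : E d => (pev p y : ℂ))
      (Complex.ofRealCLM.comp (fderiv ℝ (pev p) x)) x :=
    Complex.ofRealCLM.hasFDerivAt.comp x h1
  rw [pd_eq h2, ContinuousLinearMap.comp_apply, pev_fderiv]
  rfl

/-- Homogeneous harmonic polynomials are `HarmP`. -/
theorem harmP_of_harm {l : ℕ} {h : MvPolynomial (Fin d) ℝ} (hh : Harm l h) :
    HarmP l (fun y : E d => (pev h y : ℂ)) := by
  refine ⟨⟨Complex.ofRealCLM.contDiff.comp (pev_contDiff h), fun t x => ?_⟩, fun x => ?_⟩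
  · rw [pev_smul hh.1 t x]
    push_cast
    rfl
  · have h1 : ∀ j : Fin d, pd j (pd j (fun y : E d => (pev h y : ℂ))) x =
        (pev (MvPolynomial.pderiv j (MvPolynomial.pderiv j h)) x : ℂ) := by
      intro j
      have h2 : pd j (fun y : E d => (pev h y : ℂ)) =
          fun y : E d => (pev (MvPolynomial.pderiv j h) y : ℂ) := by
        funext y
        exact pd_pevC h j y
      rw [h2, pd_pevC]
    unfold lap
    simp_rw [h1]
    have h3 : ∑ j : Fin d, pev (MvPolynomial.pderiv j (MvPolynomial.pderiv j h)) x =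
        pev (plap h) x := by
      simp [plap, pev]
    rw [← Complex.ofReal_sum, h3, hh.2]
    simp [pev]

end Vale.Agent.P139.H523
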