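import Vale.Agent.P139.H499.RI3

/-!
# P139 / REG0 : regularity at the origin of linear radial systems (helper523)

If `U'' = A(r²)U + B(r²)(rU') + S(r²) - (e/r) U'` on `(0,∞)` with smooth coefficients and
`‖U(r)‖ ≤ C r^{-j}` near `0` with `j + 2 ≤ e`, then `U` is a smooth function of `r²`.
-/

open Set MeasureTheory Filter Topology
open scoped ContDiff

namespace Vale.Agent.P139.H523

open Vale.Agent.P139.H499

variable {E : Type*} [NormedAddCommGroup E] [NormedSpace ℝ E]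

/-- The linear radial system in classical form on `(0,∞)`. -/
structure LinSys (e : ℕ) (A B : ℝ → E →L[ℝ] E) (S : ℝ → E) (U U1 : ℝ → E) : Prop where
  d0 : ∀ r : ℝ, 0 < r → HasDerivAt U (U1 r) r
  d1 : ∀ r : ℝ, 0 < r → HasDerivAt U1
    (A (r ^ 2) (U r) + B (r ^ 2) (r • U1 r) + S (r ^ 2) - ((e : ℝ) / r) • U1 r) r

variable {e : ℕ} {A B : ℝ → E →L[ℝ] E} {S : ℝ → E} {U U1 : ℝ → E}

/-- flux form -/
lemma LinSys.flux (h : LinSys e A B S U U1) {r : ℝ} (hr : 0 < r) :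
    HasDerivAt (fun r : ℝ => r ^ e • U1 r)
      (r ^ e • (A (r ^ 2) (U r) + B (r ^ 2) (r • U1 r) + S (r ^ 2))) r := by
  have h1 : HasDerivAt (fun r : ℝ => r ^ e) ((e : ℝ) * r ^ (e - 1)) r := hasDerivAt_pow e r
  have h2 := h1.smul (h.d1 r hr)
  refine h2.congr_deriv ?_
  have h3 : ((e : ℝ) * r ^ (e - 1)) • U1 r = r ^ e • (((e : ℝ) / r) • U1 r) := by
    rw [smul_smul]
    congr 1
    rcases e with _ | e
    · simp
    · simp only [Nat.add_sub_cancel]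
      field_simp
      ring
  rw [h3, ← smul_add]
  congr 1
  abel

/-- Mean value estimate starting from a zero limit. -/
lemma mv_from_zero {W W' : ℝ → E} {M : ℝ} (i : ℕ) (hM : 0 ≤ M)
    (hd : ∀ r ∈ Ioc (0 : ℝ) 1, HasDerivAt W (W' r) r)
    (hb : ∀ r ∈ Ioc (0 : ℝ) 1, ‖W' r‖ ≤ M * r ^ i)
    (h0 : Tendsto W (𝓝[>] 0) (𝓝 0)) :
    ∀ r ∈ Ioc (0 : ℝ) 1, ‖W r‖ ≤ M * r ^ (i + 1) := by
  intro r hr
  have h1 : ∀ s ∈ Ioo (0 : ℝ) r, ‖W r - W s‖ ≤ M * r ^ (i + 1) := by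
    intro s hs
    have h2 : ∀ x ∈ Icc s r, HasDerivWithinAt W (W' x) (Icc s r) x := fun x hx =>
      (hd x ⟨hs.1.trans_le hx.1, hx.2.trans hr.2⟩).hasDerivWithinAt
    have h3 := (convex_Icc s r).norm_image_sub_le_of_norm_hasDerivWithin_le (C := M * r ^ i) h2
      (fun x hx => ?_) (left_mem_Icc.mpr hs.2.le) (right_mem_Icc.mpr hs.2.le)
    · refine h3.trans ?_
      rw [Real.norm_eq_abs, abs_of_pos (by linarith [hs.2]), pow_succ]
      have : r - s ≤ r := by linarith [hs.1]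
      have h4 : 0 ≤ M * r ^ i := by have := hr.1; positivity
      calc M * r ^ i * (r - s) ≤ M * r ^ i * r := by gcongr
        _ = M * (r ^ i * r) := by ring
    · refine (hb x ⟨hs.1.trans_le hx.1, hx.2.trans hr.2⟩).trans ?_
      have := hs.1.trans_le hx.1
      have hx2 := hx.2
      gcongr
  have h5 : Tendsto (fun s => ‖W r - W s‖) (𝓝[>] 0) (𝓝 ‖W r - 0‖) :=
    (tendsto_const_nhds.sub h0).norm
  rw [sub_zero] at h5
  refine le_of_tendsto h5 ?_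
  have : Ioo (0 : ℝ) r ∈ 𝓝[>] (0 : ℝ) := Ioo_mem_nhdsGT hr.1
  filter_upwards [this] with s hs
  exact h1 s hs

/-- uniform bound of the coefficients on `[0,1]` -/
lemma exists_coef_bound (hA : Continuous A) (hB : Continuous B) (hS : Continuous S) :
    ∃ K : ℝ, 0 ≤ K ∧ ∀ r ∈ Icc (0 : ℝ) 1, ‖A (r ^ 2)‖ ≤ K ∧ ‖B (r ^ 2)‖ ≤ K ∧ ‖S (r ^ 2)‖ ≤ K := by
  obtain ⟨a, ha⟩ := (isCompact_Icc (a := (0 : ℝ)) (b := 1)).exists_bound_of_continuousOn
    (f := fun r => A (r ^ 2)) (by fun_prop)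
  obtain ⟨b, hb⟩ := (isCompact_Icc (a := (0 : ℝ)) (b := 1)).exists_bound_of_continuousOn
    (f := fun r => B (r ^ 2)) (by fun_prop)
  obtain ⟨c, hc⟩ := (isCompact_Icc (a := (0 : ℝ)) (b := 1)).exists_bound_of_continuousOn
    (f := fun r => S (r ^ 2)) (by fun_prop)
  refine ⟨|a| + |b| + |c|, by positivity, fun r hr => ⟨?_, ?_, ?_⟩⟩
  · have := ha r hr; have := le_abs_self a; have := abs_nonneg b; have := abs_nonneg c; linarith
  · have := hb r hr; have := le_abs_self b; have := abs_nonneg a; have := abs_nonneg c; linarith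
  · have := hc r hr; have := le_abs_self c; have := abs_nonneg b; have := abs_nonneg a; linarith

/-- The derivative of the flux. -/
lemma flux_deriv_bound {K : ℝ} (hK0 : 0 ≤ K)
    (hK : ∀ r ∈ Icc (0 : ℝ) 1, ‖A (r ^ 2)‖ ≤ K ∧ ‖B (r ^ 2)‖ ≤ K ∧ ‖S (r ^ 2)‖ ≤ K)
    {C : ℝ} {k : ℕ} (hk : k ≤ e) (hb : ∀ r ∈ Ioc (0 : ℝ) 1, ‖U r‖ ≤ C / r ^ k)
    {r : ℝ} (hr : r ∈ Ioc (0 : ℝ) 1) :
    ‖r ^ e • (A (r ^ 2) (U r) + B (r ^ 2) (r • U1 r) + S (r ^ 2))‖
      ≤ K * (C + 1) * r ^ (e - k) + K * r * ‖r ^ e • U1 r‖ := by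
  have hr0 := hr.1
  obtain ⟨h1, h2, h3⟩ := hK r ⟨hr.1.le, hr.2⟩
  have e1 : r ^ e = r ^ (e - k) * r ^ k := by rw [← pow_add]; congr 1; omega
  have a1 : ‖r ^ e • A (r ^ 2) (U r)‖ ≤ K * C * r ^ (e - k) := by
    rw [norm_smul, Real.norm_of_nonneg (by positivity)]
    calc r ^ e * ‖A (r ^ 2) (U r)‖ ≤ r ^ e * (K * (C / r ^ k)) := by
          gcongr
          exact (ContinuousLinearMap.le_opNorm _ _).trans (by gcongr; exact hb r hr)
      _ = K * C * r ^ (e - k) := by rw [e1]; field_simp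
  have a2 : ‖r ^ e • B (r ^ 2) (r • U1 r)‖ ≤ K * r * ‖r ^ e • U1 r‖ := by
    rw [norm_smul, Real.norm_of_nonneg (by positivity), map_smul, norm_smul, norm_smul,
      Real.norm_of_nonneg hr0.le, Real.norm_of_nonneg (by positivity)]
    have : ‖B (r ^ 2) (U1 r)‖ ≤ K * ‖U1 r‖ :=
      (ContinuousLinearMap.le_opNorm _ _).trans (by gcongr)
    calc r ^ e * (r * ‖B (r ^ 2) (U1 r)‖) ≤ r ^ e * (r * (K * ‖U1 r‖)) := by gcongr
      _ = K * r * (r ^ e * ‖U1 r‖) := by ring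
  have a3 : ‖r ^ e • S (r ^ 2)‖ ≤ K * r ^ (e - k) := by
    rw [norm_smul, Real.norm_of_nonneg (by positivity)]
    have : r ^ e ≤ r ^ (e - k) := pow_le_pow_of_le_one hr0.le hr.2 (Nat.sub_le _ _)
    calc r ^ e * ‖S (r ^ 2)‖ ≤ r ^ (e - k) * K := by gcongr
      _ = _ := by ring
  rw [smul_add, smul_add]
  calc _ ≤ ‖r ^ e • A (r ^ 2) (U r)‖ + ‖r ^ e • B (r ^ 2) (r • U1 r)‖ + ‖r ^ e • S (r ^ 2)‖ :=
        norm_add₃_le
    _ ≤ K * C * r ^ (e - k) + K * r * ‖r ^ e • U1 r‖ + K * r ^ (e - k) := by gcongr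
    _ = _ := by ring

/-- The flux is bounded near `0`. -/
lemma LinSys.flux_bounded (h : LinSys e A B S U U1) {K : ℝ} (hK0 : 0 ≤ K)
    (hK : ∀ r ∈ Icc (0 : ℝ) 1, ‖A (r ^ 2)‖ ≤ K ∧ ‖B (r ^ 2)‖ ≤ K ∧ ‖S (r ^ 2)‖ ≤ K)
    {C : ℝ} (hC : 0 ≤ C) {k : ℕ} (hk : k ≤ e) (hb : ∀ r ∈ Ioc (0 : ℝ) 1, ‖U r‖ ≤ C / r ^ k) :
    ∃ M : ℝ, 0 ≤ M ∧ ∀ r ∈ Ioc (0 : ℝ) 1, ‖r ^ e • U1 r‖ ≤ M := by
  refine ⟨gronwallBound ‖U1 1‖ K (K * (C + 1)) 1, ?_, ?_⟩
  · have h1 := gronwallBound_mono (δ := ‖U1 1‖) (K := K) (ε := K * (C + 1)) (norm_nonneg _)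
      (by positivity) hK0 (zero_le_one' ℝ)
    rw [gronwallBound_x0] at h1
    exact (norm_nonneg _).trans h1
  · intro r hr
    set g : ℝ → E := fun t => (1 - t) ^ e • U1 (1 - t) with hg
    set W' : ℝ → E := fun r => r ^ e • (A (r ^ 2) (U r) + B (r ^ 2) (r • U1 r) + S (r ^ 2))
    have hd : ∀ t ∈ Icc (0 : ℝ) (1 - r), HasDerivAt g (-(W' (1 - t))) t := by
      intro t ht
      have h1 : 0 < 1 - t := by linarith [hr.1, ht.2]
      have h2 : HasDerivAt ((fun r => r ^ e • U1 r) ∘ (fun t => 1 - t)) ((-1 : ℝ) • W' (1 - t)) t :=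
        (h.flux h1).scomp t ((hasDerivAt_id t).const_sub 1)
      rw [neg_one_smul] at h2
      exact h2
    have hbound := norm_le_gronwallBound_of_norm_deriv_right_le (f := g)
      (f' := fun t => -(W' (1 - t))) (δ := ‖U1 1‖) (K := K) (ε := K * (C + 1)) (a := 0) (b := 1 - r)
      (fun t ht => (hd t ht).continuousAt.continuousWithinAt)
      (fun t ht => (hd t ⟨ht.1, ht.2.le⟩).hasDerivWithinAt) (by simp [hg]) ?_ (1 - r)
      ⟨by linarith [hr.2], le_rfl⟩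
    · have h3 : g (1 - r) = r ^ e • U1 r := by simp [hg]
      rw [h3, sub_zero] at hbound
      refine hbound.trans ?_
      exact gronwallBound_mono (norm_nonneg _) (by positivity) hK0 (by linarith [hr.1])
    · intro t ht
      have h1 : 1 - t ∈ Ioc (0 : ℝ) 1 := ⟨by linarith [hr.1, ht.2], by linarith [ht.1]⟩
      rw [norm_neg]
      have h2 := flux_deriv_bound hK0 hK hk hb (U1 := U1) h1
      refine h2.trans ?_
      have h4 : (1 - t) ^ (e - k) ≤ 1 := pow_le_one₀ h1.1.le h1.2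
      have h5 : 0 ≤ K * (C + 1) := by positivity
      have h6 : 0 ≤ ‖g t‖ := norm_nonneg _
      have h7 : K * (1 - t) * ‖(1 - t) ^ e • U1 (1 - t)‖ ≤ K * ‖g t‖ := by
        have : (1 - t) ≤ 1 := h1.2
        calc K * (1 - t) * ‖(1 - t) ^ e • U1 (1 - t)‖ ≤ K * 1 * ‖g t‖ := by gcongr
          _ = _ := by ring
      nlinarith

/-- The flux is `O(r)` near `0`. -/
lemma LinSys.flux_small (h : LinSys e A B S U U1) {K : ℝ} (hK0 : 0 ≤ K)
    (hK : ∀ r ∈ Icc (0 : ℝ) 1, ‖A (r ^ 2)‖ ≤ K ∧ ‖B (r ^ 2)‖ ≤ K ∧ ‖S (r ^ 2)‖ ≤ K)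
    {C : ℝ} (hC : 0 ≤ C) {k : ℕ} (hk : k + 2 ≤ e)
    (hb : ∀ r ∈ Ioc (0 : ℝ) 1, ‖U r‖ ≤ C / r ^ k) :
    ∃ M : ℝ, 0 ≤ M ∧ ∀ r ∈ Ioc (0 : ℝ) 1, ‖r ^ e • U1 r‖ ≤ M * r := by
  obtain ⟨M, hM0, hM⟩ := h.flux_bounded hK0 hK hC (by omega) hb
  -- Lipschitz bound for the flux
  set N : ℝ := K * (C + 1) + K * M with hN
  have hN0 : 0 ≤ N := by positivity
  set W : ℝ → E := fun r => r ^ e • U1 r with hW
  set W' : ℝ → E := fun r => r ^ e • (A (r ^ 2) (U r) + B (r ^ 2) (r • U1 r) + S (r ^ 2)) with hW'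
  have hW'b : ∀ r ∈ Ioc (0 : ℝ) 1, ‖W' r‖ ≤ N := by
    intro r hr
    have h2 := flux_deriv_bound (k := k) (e := e) hK0 hK (by omega) hb (U1 := U1) hr
    refine h2.trans ?_
    have h4 : r ^ (e - k) ≤ 1 := pow_le_one₀ hr.1.le hr.2
    have h5 : K * r * ‖r ^ e • U1 r‖ ≤ K * M := by
      have := hM r hr
      have hr2 := hr.2
      calc K * r * ‖r ^ e • U1 r‖ ≤ K * 1 * M := by gcongr
        _ = _ := by ring
    have h6 : 0 ≤ K * (C + 1) := by positivity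
    nlinarith
  have hLip : ∀ s t : ℝ, 0 < s → s ≤ t → t ≤ 1 → ‖W t - W s‖ ≤ N * (t - s) := by
    intro s t hs hst ht
    have h2 : ∀ x ∈ Icc s t, HasDerivWithinAt W (W' x) (Icc s t) x := fun x hx =>
      (h.flux (hs.trans_le hx.1)).hasDerivWithinAt
    have h3 := (convex_Icc s t).norm_image_sub_le_of_norm_hasDerivWithin_le (C := N) h2
      (fun x hx => hW'b x ⟨hs.trans_le hx.1, hx.2.trans ht⟩)
      (left_mem_Icc.mpr hst) (right_mem_Icc.mpr hst)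
    rwa [Real.norm_eq_abs, abs_of_nonneg (by linarith)] at h3
  refine ⟨2 * N, by positivity, fun r hr => ?_⟩
  by_contra hlt
  push Not at hlt
  obtain ⟨φ, hφ1, hφ2⟩ := exists_dual_vector'' ℝ (W r)
  have hw : 0 < ‖W r‖ := lt_of_le_of_lt (by have := hr.1; positivity) hlt
  have hφW : ∀ s ∈ Ioc (0 : ℝ) r, ‖W r‖ / 2 ≤ φ (W s) := by
    intro s hs
    have h1 : |φ (W r - W s)| ≤ N * (r - s) := by
      have := φ.le_opNorm (W r - W s)
      rw [Real.norm_eq_abs] at this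
      refine this.trans ?_
      calc ‖φ‖ * ‖W r - W s‖ ≤ 1 * (N * (r - s)) := by
            gcongr
            exact hLip s r hs.1 hs.2 hr.2
        _ = _ := one_mul _
    rw [map_sub, hφ2] at h1
    have h2 := (abs_le.mp h1).2
    have h3 : N * (r - s) ≤ N * r := by
      have := hs.1
      gcongr
      linarith
    have h4 : (‖W r‖ : ℝ) - φ (W s) ≤ N * (r - s) := h2
    linarith
  -- growth of `φ ∘ U`
  have key : ∀ s ∈ Ioc (0 : ℝ) (r / 2), ‖W r‖ / 2 ≤ 2 ^ (e + 1) * C * s := by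
    intro s hs
    have hs0 := hs.1
    have hd : ∀ x ∈ Icc s (2 * s), HasDerivAt (fun x => φ (U x)) (φ (U1 x)) x := fun x hx =>
      φ.hasFDerivAt.comp_hasDerivAt x (h.d0 x (hs0.trans_le hx.1))
    obtain ⟨ξ, hξ, hξ2⟩ := exists_hasDerivAt_eq_slope (fun x => φ (U x)) (fun x => φ (U1 x))
      (by linarith : s < 2 * s)
      (fun x hx => (hd x hx).continuousAt.continuousWithinAt)
      (fun x hx => hd x ⟨hx.1.le, hx.2.le⟩)
    have hξ0 : 0 < ξ := hs0.trans hξ.1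
    have hξr : ξ ≤ r := by linarith [hξ.2, hs.2]
    have h1 := hφW ξ ⟨hξ0, hξr⟩
    have h2 : φ (W ξ) = ξ ^ e * φ (U1 ξ) := by simp [hW]
    have hub : ∀ x ∈ Icc s (2 * s), φ (U x) ≤ C / s ^ k ∧ -(C / s ^ k) ≤ φ (U x) := by
      intro x hx
      have hx0 : 0 < x := hs0.trans_le hx.1
      have h3 : |φ (U x)| ≤ C / s ^ k := by
        have := φ.le_opNorm (U x)
        rw [Real.norm_eq_abs] at this
        refine this.trans ?_
        have h4 := hb x ⟨hx0, by linarith [hx.2, hs.2, hr.2]⟩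
        calc ‖φ‖ * ‖U x‖ ≤ 1 * (C / x ^ k) := by gcongr
          _ = C / x ^ k := one_mul _
          _ ≤ C / s ^ k := by
              have := hx.1
              gcongr
      exact ⟨(abs_le.mp h3).2, (abs_le.mp h3).1⟩
    have h3 : φ (U1 ξ) ≤ 2 * (C / s ^ k) / s := by
      rw [hξ2]
      have e1 : 2 * s - s = s := by ring
      rw [e1]
      gcongr
      have := (hub (2 * s) ⟨by linarith, le_rfl⟩).1
      have := (hub s ⟨le_rfl, by linarith⟩).2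
      linarith
    have h4 : 0 < φ (U1 ξ) := by
      have : 0 < ξ ^ e * φ (U1 ξ) := by rw [← h2]; linarith
      exact (mul_pos_iff_of_pos_left (by positivity)).mp this
    have h5 : ξ ^ e ≤ 2 ^ e * s ^ e := by
      rw [← mul_pow]
      have := hξ.2
      gcongr
    calc ‖W r‖ / 2 ≤ ξ ^ e * φ (U1 ξ) := by rw [← h2]; exact h1
      _ ≤ (2 ^ e * s ^ e) * (2 * (C / s ^ k) / s) := by gcongr
      _ = 2 ^ (e + 1) * C * (s ^ e / (s ^ k * s)) := by
          rw [pow_succ]; field_simp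
      _ ≤ 2 ^ (e + 1) * C * s := by
          gcongr
          rw [div_le_iff₀ (by positivity)]
          have : s * (s ^ k * s) = s ^ (k + 2) := by ring
          rw [this]
          exact pow_le_pow_of_le_one hs0.le (by linarith [hs.2, hr.2, hr.1]) hk
  -- contradiction for small `s`
  set D : ℝ := 2 ^ (e + 1) * C with hD
  have hD0 : 0 ≤ D := by positivity
  set s : ℝ := min (r / 2) (‖W r‖ / (4 * (D + 1))) with hs
  have hs0 : 0 < s := lt_min (by linarith [hr.1]) (by positivity)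
  have h1 := key s ⟨hs0, min_le_left _ _⟩
  have h2 : s ≤ ‖W r‖ / (4 * (D + 1)) := min_le_right _ _
  have h3 : D * s ≤ ‖W r‖ / 4 := by
    have : (D + 1) * s ≤ (D + 1) * (‖W r‖ / (4 * (D + 1))) := by gcongr
    have h4 : (D + 1) * (‖W r‖ / (4 * (D + 1))) = ‖W r‖ / 4 := by field_simp
    nlinarith
  linarith

/-- The flux is `O(r^{e-k+1})`. -/
lemma LinSys.flux_order (h : LinSys e A B S U U1) {K : ℝ} (hK0 : 0 ≤ K)
    (hK : ∀ r ∈ Icc (0 : ℝ) 1, ‖A (r ^ 2)‖ ≤ K ∧ ‖B (r ^ 2)‖ ≤ K ∧ ‖S (r ^ 2)‖ ≤ K)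
    {C : ℝ} (hC : 0 ≤ C) {k : ℕ} (hk : k + 2 ≤ e)
    (hb : ∀ r ∈ Ioc (0 : ℝ) 1, ‖U r‖ ≤ C / r ^ k) :
    ∃ M : ℝ, 0 ≤ M ∧ ∀ r ∈ Ioc (0 : ℝ) 1, ‖r ^ e • U1 r‖ ≤ M * r ^ (e - k + 1) := by
  obtain ⟨M1, hM10, hM1⟩ := h.flux_small hK0 hK hC hk hb
  set W : ℝ → E := fun r => r ^ e • U1 r with hW
  have hlim : Tendsto W (𝓝[>] 0) (𝓝 0) := by
    rw [tendsto_zero_iff_norm_tendsto_zero]
    have h1 : Tendsto (fun r : ℝ => M1 * r) (𝓝[>] 0) (𝓝 0) := by
      have : Tendsto (fun r : ℝ => M1 * r) (𝓝 0) (𝓝 (M1 * 0)) := by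
        exact (continuous_const.mul continuous_id).tendsto 0
      rw [mul_zero] at this
      exact this.mono_left nhdsWithin_le_nhds
    refine squeeze_zero' (Eventually.of_forall fun r => norm_nonneg _) ?_ h1
    have : Ioc (0 : ℝ) 1 ∈ 𝓝[>] (0 : ℝ) := Ioc_mem_nhdsGT one_pos
    filter_upwards [this] with r hr
    exact hM1 r hr
  have step : ∀ i : ℕ, i ≤ e - k → ∃ M : ℝ, 0 ≤ M ∧ ∀ r ∈ Ioc (0 : ℝ) 1, ‖W r‖ ≤ M * r ^ (i + 1) := by
    intro i
    induction i with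
    | zero => intro _; exact ⟨M1, hM10, fun r hr => by simpa using hM1 r hr⟩
    | succ i ih =>
      intro hi
      obtain ⟨M, hM0, hM⟩ := ih (by omega)
      refine ⟨K * (C + 1) + K * M, by positivity, ?_⟩
      apply mv_from_zero (i + 1) (by positivity) (fun r hr => h.flux hr.1) _ hlim
      intro r hr
      refine (flux_deriv_bound hK0 hK (by omega) hb (U1 := U1) hr).trans ?_
      have h1 : r ^ (e - k) ≤ r ^ (i + 1) := pow_le_pow_of_le_one hr.1.le hr.2 (by omega)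
      have h2 : K * r * ‖r ^ e • U1 r‖ ≤ K * M * r ^ (i + 1) := by
        have h3 := hM r hr
        have hr0 := hr.1
        have hr2 := hr.2
        calc K * r * ‖r ^ e • U1 r‖ ≤ K * 1 * (M * r ^ (i + 1)) := by gcongr
          _ = _ := by ring
      have h4 : 0 ≤ K * (C + 1) := by positivity
      nlinarith
  exact step (e - k) le_rfl

/-- Improvement of the order of the singularity down to boundedness. -/
lemma LinSys.bounded (h : LinSys e A B S U U1) {K : ℝ} (hK0 : 0 ≤ K)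
    (hK : ∀ r ∈ Icc (0 : ℝ) 1, ‖A (r ^ 2)‖ ≤ K ∧ ‖B (r ^ 2)‖ ≤ K ∧ ‖S (r ^ 2)‖ ≤ K) (k : ℕ) :
    ∀ {C : ℝ}, 0 ≤ C → k + 2 ≤ e → (∀ r ∈ Ioc (0 : ℝ) 1, ‖U r‖ ≤ C / r ^ k) →
    ∃ M : ℝ, 0 ≤ M ∧ ∀ r ∈ Ioc (0 : ℝ) 1, ‖U r‖ ≤ M ∧ ‖r ^ e • U1 r‖ ≤ M * r ^ (e + 1) := by
  induction k with
  | zero =>
    intro C hC hk hb
    obtain ⟨M, hM0, hM⟩ := h.flux_order hK0 hK hC hk hb
    refine ⟨C + M, by positivity, fun r hr => ⟨?_, ?_⟩⟩
    · have := hb r hr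
      rw [pow_zero, div_one] at this
      linarith
    · refine (hM r hr).trans ?_
      have hr0 := hr.1
      rw [Nat.sub_zero]
      gcongr
      linarith
  | succ k ih =>
    intro C hC hk hb
    obtain ⟨M, hM0, hM⟩ := h.flux_order hK0 hK hC hk hb
    have hU1 : ∀ r ∈ Ioc (0 : ℝ) 1, ‖U1 r‖ ≤ M / r ^ k := by
      intro r hr
      have hr0 := hr.1
      have h1 := hM r hr
      rw [norm_smul, Real.norm_of_nonneg (by positivity)] at h1
      have e1 : r ^ e = r ^ (e - (k + 1) + 1) * r ^ k := by rw [← pow_add]; congr 1; omega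
      rw [e1] at h1
      rw [le_div_iff₀ (by positivity)]
      have h2 : 0 < r ^ (e - (k + 1) + 1) := by positivity
      have h3 : r ^ (e - (k + 1) + 1) * (‖U1 r‖ * r ^ k) ≤ r ^ (e - (k + 1) + 1) * M := by
        calc r ^ (e - (k + 1) + 1) * (‖U1 r‖ * r ^ k)
            = r ^ (e - (k + 1) + 1) * r ^ k * ‖U1 r‖ := by ring
          _ ≤ M * r ^ (e - (k + 1) + 1) := h1
          _ = _ := by ring
      exact le_of_mul_le_mul_left h3 h2
    refine ih (C := ‖U 1‖ + M) (by positivity) (by omega) ?_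
    intro r hr
    have hr0 := hr.1
    have h2 : ∀ x ∈ Icc r 1, HasDerivWithinAt U (U1 x) (Icc r 1) x := fun x hx =>
      (h.d0 x (hr0.trans_le hx.1)).hasDerivWithinAt
    have h3 := (convex_Icc r 1).norm_image_sub_le_of_norm_hasDerivWithin_le (C := M / r ^ k) h2
      (fun x hx => ?_) (right_mem_Icc.mpr hr.2) (left_mem_Icc.mpr hr.2)
    · rw [Real.norm_eq_abs, abs_of_nonpos (by linarith [hr.2])] at h3
      have h4 : ‖U r‖ ≤ ‖U 1‖ + ‖U r - U 1‖ := by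
        have := norm_add_le (U 1) (U r - U 1)
        simpa using this
      have h5 : M / r ^ k * -(r - 1) ≤ M / r ^ k := by
        have : -(r - 1) ≤ 1 := by linarith
        have h6 : 0 ≤ M / r ^ k := by positivity
        nlinarith
      have h7 : ‖U 1‖ ≤ ‖U 1‖ / r ^ k := by
        rw [le_div_iff₀ (by positivity)]
        have : r ^ k ≤ 1 := pow_le_one₀ hr0.le hr.2
        have h8 := norm_nonneg (U 1)
        nlinarith
      rw [add_div]
      linarith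
    · refine (hU1 x ⟨hr0.trans_le hx.1, hx.2⟩).trans ?_
      have := hx.1
      gcongr

end Vale.Agent.P139.H523
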