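import Vale.Agent.P139.BU.Core
import Vale.Agent.P139.H201.Wiener4
import Vale.Agent.P139.H644.Sym3

/-!
# P139 / X2.tail : Wiener bounds for tails of symbols

The Wiener norm of `(1 - χ) V` is bounded by the symbol constant of `V` on the region where
`1 - χ` does not vanish.
-/

open scoped ComplexConjugate ContDiff Topology
open Complex Set Filter Metric

namespace Vale.Agent.P139.H523

open Vale.Agent.P139.BU
open Vale.Agent.P139.H644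
open Vale.Agent.P139.H201 (WienerRep nd)

variable {d : ℕ}

/-- A cut-off complement is a symbol of order `0`. -/
lemma cut_sym {χ : E d → ℂ} (hχ : ContDiff ℝ ∞ χ) {ρ1 : ℝ} (h0 : ∀ x, ρ1 < ‖x‖ → χ x = 0) :
    IsSym 0 (fun x => 1 - χ x) := by
  refine IsSym.of_const_sub (c := 1) (contDiff_const.sub hχ) ?_
  apply HasCompactSupport.of_support_subset_isCompact (isCompact_closedBall (0 : E d) ρ1)
  intro x hx
  rw [mem_closedBall_zero_iff]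
  by_contra h
  apply hx
  show 1 - χ x - 1 = 0
  rw [h0 x (not_le.mp h)]
  simp

/-- Symbol bounds of `(1 - χ) V` from bounds of `V` outside the ball where `χ = 1`. -/
theorem tail_symN (N : ℕ) {χ : E d → ℂ} (hχ : ContDiff ℝ ∞ χ) {ρ0 ρ1 : ℝ}
    (h1 : ∀ x, ‖x‖ < ρ0 → χ x = 1) (h0 : ∀ x, ρ1 < ‖x‖ → χ x = 0) (δ : ℝ) :
    ∃ C : ℝ, 0 < C ∧ ∀ (V : E d → ℂ) (A : ℝ), 0 ≤ A → ContDiff ℝ N V →
      (∀ i ≤ N, ∀ x, ρ0 ≤ ‖x‖ → ‖iteratedFDeriv ℝ i V x‖ ≤ A * (1 + ‖x‖) ^ (-δ - (i : ℝ))) →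
      SymN N δ (C * A) (fun x => (1 - χ x) * V x) := by
  obtain ⟨B, hB⟩ := cut_sym hχ h0 N
  have hB0 := hB.nonneg
  refine ⟨(B + 1) * 2 ^ N, by positivity, fun V A hA hV hb => ?_⟩
  refine SymN.of_region (U := ball (0 : E d) ρ0) isOpen_ball (by positivity) (hB.1.mul hV)
    (fun x hx => ?_) (fun x hx => ?_)
  · rw [h1 x (mem_ball_zero_iff.mp hx)]
    simp
  · have hx' : ρ0 ≤ ‖x‖ := by
      by_contra h
      exact hx (mem_ball_zero_iff.mpr (not_le.mp h))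
    have hpos := one_add_norm_pos x
    have e1 : PB N x (A * (1 + ‖x‖) ^ (-δ)) ((1 + ‖x‖)⁻¹) V := by
      intro k hk
      have := hb k hk x hx'
      rwa [rpow_split, ← mul_assoc] at this
    have e2 := (hB.pb x).mul hB.1 hV e1
    intro k hk
    refine (e2 k hk).trans ?_
    have e3 : ((1 + ‖x‖)⁻¹ + (1 + ‖x‖)⁻¹) ^ k = 2 ^ k * (1 + ‖x‖)⁻¹ ^ k := by
      rw [← mul_pow]
      congr 1
      ring
    rw [e3]
    have e4 : (1 + ‖x‖) ^ (-(0 : ℝ)) = 1 := by rw [neg_zero, Real.rpow_zero]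
    rw [e4, mul_one]
    have e5 : (2 : ℝ) ^ k ≤ 2 ^ N := pow_le_pow_right₀ (by norm_num) hk
    calc B * (A * (1 + ‖x‖) ^ (-δ)) * (2 ^ k * (1 + ‖x‖)⁻¹ ^ k)
        ≤ (B + 1) * (A * (1 + ‖x‖) ^ (-δ)) * (2 ^ N * (1 + ‖x‖)⁻¹ ^ k) := by
          gcongr
          linarith
      _ = (B + 1) * 2 ^ N * A * (1 + ‖x‖) ^ (-δ) * (1 + ‖x‖)⁻¹ ^ k := by ring

/-- **X2.tail, abstract form.**  One constant for all potentials `V`. -/
theorem tail_wiener (s : ℕ) {χ : E d → ℂ} (hχ : ContDiff ℝ ∞ χ) {ρ0 ρ1 : ℝ}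
    (h1 : ∀ x, ‖x‖ < ρ0 → χ x = 1) (h0 : ∀ x, ρ1 < ‖x‖ → χ x = 0) {δ : ℝ} (hδ : 0 < δ) :
    ∃ C : ℝ, 0 < C ∧ ∀ (V : E d → ℂ) (A : ℝ), 0 ≤ A → ContDiff ℝ (nd (E d) s) V →
      (∀ i ≤ nd (E d) s, ∀ x, ρ0 ≤ ‖x‖ →
        ‖iteratedFDeriv ℝ i V x‖ ≤ A * (1 + ‖x‖) ^ (-δ - (i : ℝ))) →
      WienerRep s (fun x => (1 - χ x) * V x) (C * A) := by
  obtain ⟨C1, hC1, H1⟩ := tail_symN (nd (E d) s) hχ h1 h0 δ
  obtain ⟨C2, hC2, H2⟩ := WienerRep.symbol (E d) ℂ s hδ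
  refine ⟨C2 * C1, by positivity, fun V A hA hV hb => ?_⟩
  have h3 := H1 V A hA hV hb
  have h4 := H2 _ (C1 * A) (by positivity) h3.1 h3.2
  rwa [mul_assoc]

/-- Wiener bound of a global symbol, in the same form. -/
theorem sym_wiener (d s : ℕ) {δ : ℝ} (hδ : 0 < δ) :
    ∃ C : ℝ, 0 < C ∧ ∀ (V : E d → ℂ) (A : ℝ), 0 ≤ A → ContDiff ℝ (nd (E d) s) V →
      (∀ i ≤ nd (E d) s, ∀ x,
        ‖iteratedFDeriv ℝ i V x‖ ≤ A * (1 + ‖x‖) ^ (-δ - (i : ℝ))) →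
      WienerRep s V (C * A) := by
  obtain ⟨C2, hC2, H2⟩ := WienerRep.symbol (E d) ℂ s hδ
  exact ⟨C2, hC2, fun V A hA hV hb => H2 V A hA hV hb⟩

end Vale.Agent.P139.H523
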