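import Vale.Agent.P139.H523.TailUP

/-!
# P139 / X7 input : Wiener bounds of `y_j W1∘Q`, `y_j W2∘Q`, polynomial in `m`
-/

open scoped ComplexConjugate ContDiff Topology
open Complex Set Filter Metric

namespace Vale.Agent.P139.H523

open Vale.Agent.P139.BU
open Vale.Agent.P139.H644
open Vale.Agent.P139.H201 (WienerRep nd)

variable {d : ℕ} {B : Set (ℝ × ℝ)} {m0 : ℕ} {w R : ℕ → ℝ} {q : ℕ → ℝ → ℂ}

/-- The coordinate functions are symbols of order `1`. -/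
lemma coord_symN (N : ℕ) (j : Fin d) :
    ∃ A : ℝ, 0 ≤ A ∧ SymN N (-1) A (fun y : E d => ((y j : ℝ) : ℂ)) := by
  have h1 := (SymN.id (E := E d) (N := N)).clm
    (Complex.ofRealCLM.comp (EuclideanSpace.proj j : E d →L[ℝ] ℝ))
  exact ⟨_, h1.nonneg, h1⟩

/-- One constant `C` for all potentials of order two: `‖y_j V‖ ≤ C A`. -/
theorem coord_wiener (d s : ℕ) :
    ∃ C : ℝ, 0 < C ∧ ∀ (V : E d → ℂ) (A : ℝ) (j : Fin d), 0 ≤ A → ContDiff ℝ (nd (E d) s) V →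
      (∀ i ≤ nd (E d) s, ∀ x,
        ‖iteratedFDeriv ℝ i V x‖ ≤ A * (1 + ‖x‖) ^ (-2 - (i : ℝ))) →
      WienerRep s (fun y : E d => ((y j : ℝ) : ℂ) * V y) (C * A) := by
  choose A0 hA0 hc using fun j : Fin d => coord_symN (d := d) (nd (E d) s) j
  obtain ⟨C2, hC2, H2⟩ := WienerRep.symbol (E d) ℂ s (δ := 1) one_pos
  have hsum : 0 ≤ ∑ j, A0 j := Finset.sum_nonneg fun j _ => hA0 j
  refine ⟨C2 * ((∑ j, A0 j + 1) * 2 ^ (nd (E d) s)), by positivity, fun V A j hA hV hb => ?_⟩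
  have h1 : SymN (nd (E d) s) 2 A V := ⟨hV, hb⟩
  have h2 := (hc j).mul h1
  have h3 : A0 j * A * 2 ^ (nd (E d) s) ≤ (∑ j, A0 j + 1) * 2 ^ (nd (E d) s) * A := by
    have : A0 j ≤ ∑ j, A0 j + 1 := by
      have := Finset.single_le_sum (f := A0) (fun i _ => hA0 i) (Finset.mem_univ j)
      linarith
    calc A0 j * A * 2 ^ (nd (E d) s) ≤ (∑ j, A0 j + 1) * A * 2 ^ (nd (E d) s) := by gcongr
      _ = _ := by ring
  have h4 := h2.mono le_rfl (show (1 : ℝ) ≤ -1 + 2 by norm_num) h3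
  have h5 := H2 _ _ h4.nonneg h4.1 h4.2
  rwa [← mul_assoc] at h5

/-- **X7 input**: the four Wiener facts with one constant `A m^A`. -/
theorem up_pot_wiener_y (h : UP d B m0 w R q) (s : ℕ) :
    ∃ A : ℕ, 1 ≤ A ∧ ∀ m, m0 ≤ m →
      WienerRep s (fun x : E d => W1 m (q m ‖x‖)) ((A : ℝ) * (m : ℝ) ^ A) ∧
      WienerRep s (fun x : E d => W2 m (q m ‖x‖)) ((A : ℝ) * (m : ℝ) ^ A) ∧
      (∀ j, WienerRep s (fun y : E d => ((y j : ℝ) : ℂ) * W1 m (q m ‖y‖))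
        ((A : ℝ) * (m : ℝ) ^ A)) ∧
      (∀ j, WienerRep s (fun y : E d => ((y j : ℝ) : ℂ) * W2 m (q m ‖y‖))
        ((A : ℝ) * (m : ℝ) ^ A)) := by
  obtain ⟨A, hA⟩ := pot_global h (nd (E d) s)
  obtain ⟨C, hC, H⟩ := sym_wiener d s (δ := 2) (by norm_num)
  obtain ⟨C', hC', H'⟩ := coord_wiener d s
  obtain ⟨n, hn⟩ := exists_nat_ge ((C + C') * A)
  refine ⟨n + A + 1, by omega, fun m hm => ?_⟩
  have hm1 : 1 ≤ m := h.m0_pos.trans hm
  have hmR : (1 : ℝ) ≤ m := by exact_mod_cast hm1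
  have hq := contDiff_q h hm (nd (E d) s)
  have e1 : (m : ℝ) ^ A ≤ (m : ℝ) ^ (n + A + 1) := pow_le_pow_right₀ hmR (by omega)
  have e2 : (n : ℝ) ≤ ((n + A + 1 : ℕ) : ℝ) := by
    exact_mod_cast (show n ≤ n + A + 1 by omega)
  have hmA : 0 ≤ (A : ℝ) * (m : ℝ) ^ A := by positivity
  have hboth : (C + C') * ((A : ℝ) * (m : ℝ) ^ A) ≤
      ((n + A + 1 : ℕ) : ℝ) * (m : ℝ) ^ (n + A + 1) := by
    calc (C + C') * ((A : ℝ) * (m : ℝ) ^ A) = ((C + C') * A) * (m : ℝ) ^ A := by ring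
      _ ≤ ((n + A + 1 : ℕ) : ℝ) * (m : ℝ) ^ (n + A + 1) := by
        gcongr
        exact hn.trans e2
  have hle : C * ((A : ℝ) * (m : ℝ) ^ A) ≤ ((n + A + 1 : ℕ) : ℝ) * (m : ℝ) ^ (n + A + 1) := by
    refine le_trans ?_ hboth
    have : 0 ≤ C' * ((A : ℝ) * (m : ℝ) ^ A) := by positivity
    linarith
  have hle' : C' * ((A : ℝ) * (m : ℝ) ^ A) ≤ ((n + A + 1 : ℕ) : ℝ) * (m : ℝ) ^ (n + A + 1) := by
    refine le_trans ?_ hboth
    have : 0 ≤ C * ((A : ℝ) * (m : ℝ) ^ A) := by positivity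
    linarith
  have hmono : ∀ {V : E d → ℂ} {a b : ℝ}, a ≤ b → WienerRep s V a → WienerRep s V b := by
    rintro V a b hab ⟨φ, a1, a2, a3, a4⟩
    exact ⟨φ, a1, a2, a3, a4.trans hab⟩
  exact ⟨hmono hle (H _ _ hmA (contDiff_W1q hq) fun i hi x => (hA m hm i hi x).1),
    hmono hle (H _ _ hmA (contDiff_W2q hq) fun i hi x => (hA m hm i hi x).2.1),
    fun j => hmono hle' (H' _ _ j hmA (contDiff_W1q hq) fun i hi x => (hA m hm i hi x).1),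
    fun j => hmono hle' (H' _ _ j hmA (contDiff_W2q hq) fun i hi x => (hA m hm i hi x).2.1)⟩

end Vale.Agent.P139.H523
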