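import Vale.Agent.P139.H523.X2a
import Vale.Agent.P139.H523.RadReg
import Vale.Agent.P139.H644.Sym4
import Vale.Agent.P139.H730.RS2
import Vale.Agent.P139.H901.Decay2
import Vale.Agent.P139.H201.Wiener4

/-!
# P139 / X2 : mode functions are symbols and satisfy the equation pointwise
-/

open scoped ComplexConjugate ContDiff Topology
open Complex Set Filter

namespace Vale.Agent.P139.H523

open Vale.Agent.P139.BU
open Vale.Agent.P139.H644 (SymN)
open Vale.Agent.P139.H901 (WS SB rp)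
open Vale.Agent.P139.H201 (WienerRep nd)

variable {d : ℕ}

/-- Homogeneous smooth functions are symbols of order `l`. -/
theorem HomP.symN {l : ℕ} {P : E d → ℂ} (hP : HomP l P) (N : ℕ) :
    ∃ A : ℝ, SymN N (-(l : ℝ)) A P := by
  have hk : ∀ k : ℕ, ∃ B : ℝ, 0 ≤ B ∧ ∀ x : E d, ‖x‖ ≤ 1 → ‖iteratedFDeriv ℝ k P x‖ ≤ B := by
    intro k
    have hc : Continuous (iteratedFDeriv ℝ k P) :=
      hP.smooth.continuous_iteratedFDeriv (by exact_mod_cast le_top)
    obtain ⟨B, hB⟩ := (isCompact_closedBall (0 : E d) 1).exists_bound_of_continuousOn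
      hc.continuousOn
    exact ⟨max B 0, le_max_right _ _, fun x hx => (hB x (by simpa using hx)).trans (le_max_left _ _)⟩
  choose B hB0 hB using hk
  refine ⟨∑ k ∈ Finset.range (N + 1), B k * 2 ^ k, hP.smooth.of_le (by exact_mod_cast le_top), ?_⟩
  intro k hkN x
  have hsum : B k * 2 ^ k ≤ ∑ k ∈ Finset.range (N + 1), B k * 2 ^ k :=
    Finset.single_le_sum (f := fun k => B k * 2 ^ k) (fun i _ => by have := hB0 i; positivity)
      (Finset.mem_range.mpr (by omega))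
  have hx1 : 0 < 1 + ‖x‖ := by positivity
  have hexp : -(-(l : ℝ)) - (k : ℝ) = (l : ℝ) - k := by ring
  rw [hexp]
  have hmain : ‖iteratedFDeriv ℝ k P x‖ ≤ B k * 2 ^ k * (1 + ‖x‖) ^ ((l : ℝ) - k) := by
    rcases le_or_gt ‖x‖ 1 with hx | hx
    · refine (hB k x hx).trans ?_
      have h1 : (1 : ℝ) ≤ 2 ^ k * (1 + ‖x‖) ^ ((l : ℝ) - k) := by
        rw [Real.rpow_sub hx1, Real.rpow_natCast, Real.rpow_natCast]
        have h2 : (1 + ‖x‖) ^ k ≤ 2 ^ k := by gcongr; linarith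
        have h3 : 1 ≤ (1 + ‖x‖) ^ l := one_le_pow₀ (by linarith [norm_nonneg x])
        rw [← mul_div_assoc, le_div_iff₀ (by positivity), one_mul]
        calc (1 + ‖x‖) ^ k ≤ 2 ^ k := h2
          _ = 2 ^ k * 1 := (mul_one _).symm
          _ ≤ 2 ^ k * (1 + ‖x‖) ^ l := by gcongr
      have := hB0 k
      calc B k = B k * 1 := (mul_one _).symm
        _ ≤ B k * (2 ^ k * (1 + ‖x‖) ^ ((l : ℝ) - k)) := by gcongr
        _ = _ := by ring
    · -- homogeneity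
      set t : ℝ := ‖x‖ with ht
      have ht0 : 0 < t := by linarith
      set u : E d := t⁻¹ • x with hu
      have hxu : x = t • u := by rw [hu, smul_smul, mul_inv_cancel₀ ht0.ne', one_smul]
      have hun : ‖u‖ ≤ 1 := by
        rw [hu, norm_smul, norm_inv, Real.norm_of_nonneg ht0.le, ← ht, inv_mul_cancel₀ ht0.ne']
      have e1 : (fun y : E d => P (t • y)) = fun y => (t : ℂ) ^ l * P y := by
        funext y; exact hP.hom t y
      have hPk : ContDiff ℝ k P := hP.smooth.of_le (by exact_mod_cast le_top)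
      have e2 : iteratedFDeriv ℝ k (fun y : E d => P (t • y)) u
          = t ^ k • iteratedFDeriv ℝ k P (t • u) :=
        congrFun (iteratedFDeriv_comp_const_smul (𝕜 := ℝ) (i := k) t hPk) u
      have e3 : iteratedFDeriv ℝ k (fun y : E d => (t : ℂ) ^ l * P y) u
          = (t : ℂ) ^ l • iteratedFDeriv ℝ k P u := by
        have := iteratedFDeriv_const_smul_apply' (𝕜 := ℝ) (i := k) (a := (t : ℂ) ^ l) (f := P)
          (x := u) hPk.contDiffAt
        simpa [smul_eq_mul] using this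
      rw [e1, e3] at e2
      have e4 := congrArg norm e2
      rw [norm_smul, norm_smul, norm_pow, norm_pow, Complex.norm_real, Real.norm_of_nonneg ht0.le,
        ← hxu] at e4
      have h1 : t ^ k * ‖iteratedFDeriv ℝ k P x‖ ≤ t ^ l * B k := by
        rw [← e4]
        gcongr
        exact hB k u hun
      have h2 : ‖iteratedFDeriv ℝ k P x‖ ≤ B k * (t ^ l / t ^ k) := by
        rw [mul_div_assoc', le_div_iff₀ (by positivity)]
        calc ‖iteratedFDeriv ℝ k P x‖ * t ^ k = t ^ k * ‖iteratedFDeriv ℝ k P x‖ := by ring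
          _ ≤ t ^ l * B k := h1
          _ = _ := by ring
      refine h2.trans ?_
      have h3 : t ^ l / t ^ k ≤ 2 ^ k * (1 + t) ^ ((l : ℝ) - k) := by
        rw [Real.rpow_sub hx1, Real.rpow_natCast, Real.rpow_natCast, div_le_iff₀ (by positivity)]
        have h4 : (1 + t) ^ k ≤ (2 * t) ^ k := by gcongr; linarith
        have h5 : t ^ l ≤ (1 + t) ^ l := by gcongr; linarith
        have h6 : t ^ l ≤ 2 ^ k * ((1 + t) ^ l / (1 + t) ^ k) * t ^ k := by
          have e5 : 2 ^ k * ((1 + t) ^ l / (1 + t) ^ k) * t ^ k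
              = (1 + t) ^ l * ((2 * t) ^ k / (1 + t) ^ k) := by
            rw [mul_pow]; field_simp
          rw [e5]
          have h7 : 1 ≤ (2 * t) ^ k / (1 + t) ^ k := by
            rw [le_div_iff₀ (by positivity), one_mul]; exact h4
          calc t ^ l ≤ (1 + t) ^ l := h5
            _ = (1 + t) ^ l * 1 := (mul_one _).symm
            _ ≤ _ := by gcongr
        exact h6
      have := hB0 k
      calc B k * (t ^ l / t ^ k) ≤ B k * (2 ^ k * (1 + t) ^ ((l : ℝ) - k)) := by gcongr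
        _ = _ := by ring
  calc ‖iteratedFDeriv ℝ k P x‖ ≤ B k * 2 ^ k * (1 + ‖x‖) ^ ((l : ℝ) - k) := hmain
    _ ≤ _ := by gcongr

/-- The reduced function `F / r^l` of a weighted symbol. -/
lemma WS_div_pow {δ : ℝ} {J l : ℕ} {F : ℝ → ℂ} (h : WS 1 δ J F) :
    WS 1 (δ + l) J (fun r => F r / (r : ℂ) ^ l) := by
  refine SB.congr (fun r hr => ?_) h
  have hr0 : 0 < r := zero_lt_one.trans hr
  have hr' : (r : ℂ) ≠ 0 := by exact_mod_cast hr0.ne'
  rw [H901.rp_add hr0]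
  have : rp (l : ℝ) r = (r : ℂ) ^ l := by
    rw [rp, Real.rpow_natCast, Complex.ofReal_pow]
  rw [this]
  field_simp

/-- Symbol bounds in `z = r²` for the reduced function. -/
lemma reduced_bound {δ : ℝ} {N l : ℕ} {F h : ℝ → ℂ} (hh : ContDiff ℝ ∞ h)
    (hF : ∀ r : ℝ, 0 < r → F r = (r : ℂ) ^ l * h (r ^ 2)) (hW : WS 1 δ N F) :
    ∃ A : ℝ, ∀ k ≤ N, ∀ z : ℝ, 1 ≤ z →
      ‖iteratedDeriv k h z‖ ≤ A * z ^ (-(δ + l) / 2 - k) := by
  set u : ℝ → ℂ := fun r => h (r ^ 2) with hu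
  have hus : ContDiff ℝ ∞ u := hh.comp (contDiff_id.pow 2)
  have hWu : WS 1 (δ + l) N u := by
    refine (WS_div_pow (l := l) hW).congr fun r hr => ?_
    have hr0 : 0 < r := zero_lt_one.trans hr
    have hr' : (r : ℂ) ≠ 0 := by exact_mod_cast hr0.ne'
    rw [hF r hr0]
    field_simp
    rfl
  have hbd : ∀ k : ℕ, ∃ C : ℝ, 0 ≤ C ∧ (k ≤ N → ∀ r : ℝ, 1 ≤ r →
      ‖iteratedDeriv k u r‖ ≤ C * r ^ (-(δ + l) - k)) := by
    intro k
    by_cases hk : k ≤ N
    · obtain ⟨C, hC⟩ := hWu.bound_one hus.contDiffOn hk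
      refine ⟨|C|, abs_nonneg C, fun _ r hr => (hC r hr).trans ?_⟩
      have : 0 ≤ r ^ (-(δ + l) - (k : ℝ)) := Real.rpow_nonneg (by linarith) _
      gcongr
      exact le_abs_self C
    · exact ⟨0, le_rfl, fun h => absurd h hk⟩
  choose C hC0 hC using hbd
  set A0 : ℝ := ∑ k ∈ Finset.range (N + 1), C k with hA0
  have hA : ∀ k ≤ N, ∀ r : ℝ, 1 ≤ r → ‖iteratedDeriv k u r‖ ≤ A0 * r ^ (-(δ + l) - k) := by
    intro k hk r hr
    refine (hC k hk r hr).trans ?_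
    have h1 : C k ≤ A0 := Finset.single_le_sum (f := C) (fun i _ => hC0 i)
      (Finset.mem_range.mpr (by omega))
    have : 0 ≤ r ^ (-(δ + l) - (k : ℝ)) := Real.rpow_nonneg (by linarith) _
    gcongr
  obtain ⟨-, h2⟩ := H730.symbol_comp_sqrt (r₁ := 0) (r₀ := 1) (δ := δ + l) (A := A0) (n := N)
    le_rfl one_pos (hus.of_le (by exact_mod_cast le_top)).contDiffOn hA
  refine ⟨H730.rsConst N * A0, fun k hk z hz => ?_⟩
  have h3 := h2 k hk z (by simpa using hz)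
  have h4 : (fun z : ℝ => u (Real.sqrt z)) =ᶠ[𝓝 z] h := by
    filter_upwards [Ioi_mem_nhds (show (0 : ℝ) < z by linarith)] with x hx
    simp only [hu]
    rw [Real.sq_sqrt (le_of_lt hx)]
  rwa [h4.iteratedDeriv_eq] at h3

/-- **X2, symbol bound.** -/
theorem modeFn_symN {δ : ℝ} (hδ : 0 ≤ δ) {N l : ℕ} {F h : ℝ → ℂ} (hh : ContDiff ℝ ∞ h)
    (hF : ∀ r : ℝ, 0 < r → F r = (r : ℂ) ^ l * h (r ^ 2)) (hW : WS 1 δ N F) {P : E d → ℂ}
    (hP : HomP l P) : ∃ A : ℝ, SymN N δ A (modeFn h P) := by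
  obtain ⟨A, hA⟩ := reduced_bound hh hF hW
  obtain ⟨h1, C, hC0, hC⟩ := H730.radial_symbol_global (E := E d) (δ := δ + l) (n := N) one_pos
    (by positivity) (hh.of_le (by exact_mod_cast le_top)).contDiffOn hA
  have h2 : SymN N (δ + l) C (fun y : E d => h (‖y‖ ^ 2)) := ⟨h1, hC⟩
  obtain ⟨B, hB⟩ := hP.symN N
  have h3 := h2.mul hB
  have e : δ + l + -(l : ℝ) = δ := by ring
  rw [e] at h3
  exact ⟨_, h3⟩

lemma contDiff_modeFn {h : ℝ → ℂ} (hh : ContDiff ℝ ∞ h) {l : ℕ} {P : E d → ℂ} (hP : HomP l P) :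
    ContDiff ℝ ∞ (modeFn h P) :=
  (hh.comp (contDiff_norm_sq ℝ)).mul hP.smooth

/-- **X2, Wiener membership.** -/
theorem modeFn_wiener {δ : ℝ} (hδ : 0 < δ) {s N l : ℕ} (hN : nd (E d) s ≤ N) {F h : ℝ → ℂ}
    (hh : ContDiff ℝ ∞ h) (hF : ∀ r : ℝ, 0 < r → F r = (r : ℂ) ^ l * h (r ^ 2))
    (hW : WS 1 δ N F) {P : E d → ℂ} (hP : HomP l P) :
    ∃ C : ℝ, WienerRep s (modeFn h P) C := by
  obtain ⟨A, hA⟩ := modeFn_symN hδ.le hh hF hW hP
  obtain ⟨C, -, hC⟩ := WienerRep.symbol (E d) ℂ s hδ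
  have hA' := hA.mono hN le_rfl le_rfl
  exact ⟨_, hC _ A hA.nonneg hA'.1 hA'.2⟩

/-- **X2, Wiener membership of the Euler derivative.** -/
theorem modeFn_eul_wiener {δ : ℝ} (hδ : 0 < δ) {s N l : ℕ} (hN : nd (E d) s + 1 ≤ N)
    {F h : ℝ → ℂ} (hh : ContDiff ℝ ∞ h) (hF : ∀ r : ℝ, 0 < r → F r = (r : ℂ) ^ l * h (r ^ 2))
    (hW : WS 1 δ N F) {P : E d → ℂ} (hP : HomP l P) :
    ∃ C : ℝ, WienerRep s (eul (modeFn h P)) C := by
  obtain ⟨A, hA⟩ := modeFn_symN hδ.le hh hF hW hP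
  obtain ⟨C, -, hC⟩ := WienerRep.symbol (E d) ℂ s hδ
  have hA' := (hA.mono hN le_rfl le_rfl).euler
  exact ⟨_, hC _ _ hA'.nonneg hA'.1 hA'.2⟩

/-- **X2, Wiener membership of the partial derivatives.** -/
theorem modeFn_pd_wiener {δ : ℝ} (hδ : 0 < δ) {s N l : ℕ} (hN : nd (E d) s + 1 ≤ N)
    {F h : ℝ → ℂ} (hh : ContDiff ℝ ∞ h) (hF : ∀ r : ℝ, 0 < r → F r = (r : ℂ) ^ l * h (r ^ 2))
    (hW : WS 1 δ N F) {P : E d → ℂ} (hP : HomP l P) (j : Fin d) :
    ∃ C : ℝ, WienerRep s (pd j (modeFn h P)) C := by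
  obtain ⟨A, hA⟩ := modeFn_symN hδ.le hh hF hW hP
  obtain ⟨C, -, hC⟩ := WienerRep.symbol (E d) ℂ s hδ
  have hA' := ((hA.mono hN le_rfl le_rfl).grad_apply (EuclideanSpace.single j (1 : ℝ))).mono
    le_rfl (show δ ≤ δ + 1 by linarith) le_rfl
  exact ⟨_, hC _ _ hA'.nonneg hA'.1 hA'.2⟩

end Vale.Agent.P139.H523
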