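import Vale.Agent.P139.H523.X2b

/-!
# P139 / X2 : the mode pair satisfies the equation pointwise on `ℝ^d`
-/

open scoped ComplexConjugate ContDiff Topology
open Complex Set Filter

namespace Vale.Agent.P139.H523

open Vale.Agent.P139.BU
open Vale.Agent.P139.H901 (WS)
open Vale.Agent.P139.H201 (WienerRep nd)

variable {d : ℕ}

lemma contDiff_infty_deriv {h : ℝ → ℂ} (hh : ContDiff ℝ ∞ h) : ContDiff ℝ ∞ (deriv h) := by
  have := (contDiff_infty_iff_deriv.mp hh).2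
  exact this

lemma hasDerivAt_of_contDiff {h : ℝ → ℂ} (hh : ContDiff ℝ ∞ h) (z : ℝ) :
    HasDerivAt h (deriv h z) z :=
  ((hh.differentiable (by simp)) z).hasDerivAt

/-- First derivative of `r^l h(r²)`. -/
lemma hasDerivAt_rpow_mul {l : ℕ} {h : ℝ → ℂ} (hh : ContDiff ℝ ∞ h) {r : ℝ} (hr : 0 < r) :
    HasDerivAt (fun r : ℝ => (r : ℂ) ^ l * h (r ^ 2))
      ((r : ℂ) ^ l * ((l : ℂ) / r * h (r ^ 2) + 2 * r * deriv h (r ^ 2))) r := by
  have hr' : (r : ℂ) ≠ 0 := by exact_mod_cast hr.ne'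
  have h1 : HasDerivAt (fun r : ℝ => (r : ℂ) ^ l) ((l : ℂ) * (r : ℂ) ^ (l - 1)) r :=
    (hasDerivAt_pow l (r : ℂ)).comp_ofReal
  have h2 : HasDerivAt (fun r : ℝ => r ^ 2) (2 * r) r := by simpa using hasDerivAt_pow 2 r
  have h3 : HasDerivAt (fun r : ℝ => h (r ^ 2)) ((2 * r) • deriv h (r ^ 2)) r :=
    (hasDerivAt_of_contDiff hh (r ^ 2)).scomp r h2
  refine (h1.mul h3).congr_deriv ?_
  rw [real_smul]
  rcases l with _ | l
  · push_cast
    ring
  · simp only [Nat.add_sub_cancel]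
    push_cast
    field_simp
    ring

/-- The radial Laplacian of `r^l h(r²)`. -/
lemma lapl_rpow_mul {l : ℕ} {F h : ℝ → ℂ} (hh : ContDiff ℝ ∞ h)
    (hF : ∀ r : ℝ, 0 < r → F r = (r : ℂ) ^ l * h (r ^ 2)) {r : ℝ} (hr : 0 < r) :
    deriv F r = (r : ℂ) ^ l * ((l : ℂ) / r * h (r ^ 2) + 2 * r * deriv h (r ^ 2)) ∧
    lapl d l F r = (r : ℂ) ^ l *
      (4 * (r ^ 2 : ℝ) * deriv (deriv h) (r ^ 2) + (2 * d + 4 * l) * deriv h (r ^ 2)) := by
  have hr' : (r : ℂ) ≠ 0 := by exact_mod_cast hr.ne'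
  have hev : ∀ r : ℝ, 0 < r → F =ᶠ[𝓝 r] fun r : ℝ => (r : ℂ) ^ l * h (r ^ 2) := by
    intro r hr
    filter_upwards [Ioi_mem_nhds hr] with x hx
    exact hF x hx
  have hd1 : ∀ r : ℝ, 0 < r → deriv F r =
      (r : ℂ) ^ l * ((l : ℂ) / r * h (r ^ 2) + 2 * r * deriv h (r ^ 2)) := fun r hr => by
    rw [(hev r hr).deriv_eq]
    exact (hasDerivAt_rpow_mul hh hr).deriv
  refine ⟨hd1 r hr, ?_⟩
  -- second derivative
  have hev2 : deriv F =ᶠ[𝓝 r] fun r : ℝ => (l : ℂ) * (((r : ℂ) ^ l * h (r ^ 2)) / r) +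
      2 * (r * ((r : ℂ) ^ l * deriv h (r ^ 2))) := by
    filter_upwards [Ioi_mem_nhds hr] with x hx
    have hx' : (x : ℂ) ≠ 0 := by
      have : (0 : ℝ) < x := hx
      exact_mod_cast this.ne'
    rw [hd1 x hx]
    field_simp
  have a1 := hasDerivAt_rpow_mul (l := l) hh hr
  have a2 := hasDerivAt_rpow_mul (l := l) (contDiff_infty_deriv hh) hr
  have a3 : HasDerivAt (fun r : ℝ => (r : ℂ)) 1 r := Complex.ofRealCLM.hasDerivAt
  have a4 := ((a1.div a3 hr').const_mul (l : ℂ)).add ((a3.mul a2).const_mul (2 : ℂ))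
  have hd2 := (a4.congr_of_eventuallyEq hev2).deriv
  rw [lapl, hd2, hd1 r hr, hF r hr]
  push_cast
  field_simp
  ring

variable {m l : ℕ} {w : ℝ} {Q : E d → ℂ} {q : ℝ → ℂ} {lam : ℂ}

/-- Radial to pointwise: `L (h P) = (P / r^l) · (radial operator)`. -/
lemma LL_modeFn_ne (hq : ∀ x, Q x = q ‖x‖) {F G hF hG : ℝ → ℂ} (sF : ContDiff ℝ ∞ hF)
    (sG : ContDiff ℝ ∞ hG) (eF : ∀ r : ℝ, 0 < r → F r = (r : ℂ) ^ l * hF (r ^ 2))
    (eG : ∀ r : ℝ, 0 < r → G r = (r : ℂ) ^ l * hG (r ^ 2)) {P : E d → ℂ} (hP : HarmP l P)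
    {x : E d} (hx : x ≠ 0) :
    LL1 m w Q (modeFn hF P) (modeFn hG P) x = P x / (‖x‖ : ℂ) ^ l * RL1 d m l w q F G ‖x‖ ∧
    LL2 m w Q (modeFn hF P) (modeFn hG P) x = P x / (‖x‖ : ℂ) ^ l * RL2 d m l w q F G ‖x‖ := by
  have hr : 0 < ‖x‖ := norm_pos_iff.mpr hx
  have hr' : (‖x‖ : ℂ) ≠ 0 := by exact_mod_cast hr.ne'
  have aux : ∀ {F h : ℝ → ℂ}, ContDiff ℝ ∞ h → (∀ r : ℝ, 0 < r → F r = (r : ℂ) ^ l * h (r ^ 2)) →
      lap (modeFn h P) x = P x / (‖x‖ : ℂ) ^ l * lapl d l F ‖x‖ ∧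
      eul (modeFn h P) x = P x / (‖x‖ : ℂ) ^ l * (‖x‖ * deriv F ‖x‖) ∧
      modeFn h P x = P x / (‖x‖ : ℂ) ^ l * F ‖x‖ := by
    intro F h sh eh
    obtain ⟨b1, b2⟩ := lapl_rpow_mul (d := d) sh eh hr
    refine ⟨?_, ?_, ?_⟩
    · rw [lap_modeFn (h' := deriv h) (Eventually.of_forall fun z => hasDerivAt_of_contDiff sh z)
        (hasDerivAt_of_contDiff (contDiff_infty_deriv sh) _) hP, b2]
      field_simp
    · rw [eul_modeFn (hasDerivAt_of_contDiff sh _) hP.toHomP, b1]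
      push_cast
      field_simp
      ring
    · rw [modeFn, eh _ hr]
      field_simp
  obtain ⟨f1, f2, f3⟩ := aux sF eF
  obtain ⟨g1, g2, g3⟩ := aux sG eG
  constructor
  · rw [LL1, RL1, f1, f2, f3, g3, hq x]
    ring
  · rw [LL2, RL2, g1, g2, g3, f3, hq x]
    ring

lemma contDiff_lap {f : E d → ℂ} (hf : ContDiff ℝ ∞ f) : ContDiff ℝ ∞ (lap f) := by
  unfold lap
  exact ContDiff.sum fun j _ => contDiff_pd (contDiff_pd hf j) j

lemma contDiff_eul {f : E d → ℂ} (hf : ContDiff ℝ ∞ f) : ContDiff ℝ ∞ (eul f) := by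
  unfold eul
  exact (hf.fderiv_right (m := ∞) (by simp)).clm_apply contDiff_id

lemma continuous_LL (hQ : Continuous Q) {f g : E d → ℂ} (hf : ContDiff ℝ ∞ f)
    (hg : ContDiff ℝ ∞ g) : Continuous (LL1 m w Q f g) ∧ Continuous (LL2 m w Q f g) := by
  have h1 := (contDiff_lap hf).continuous
  have h2 := (contDiff_eul hf).continuous
  have h3 := (contDiff_lap hg).continuous
  have h4 := (contDiff_eul hg).continuous
  have h5 := hf.continuous
  have h6 := hg.continuous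
  have h7 : Continuous fun x => conj (Q x) := Complex.continuous_conj.comp hQ
  have h8 : Continuous fun x => W1 m (Q x) := by unfold W1; fun_prop
  have h9 : Continuous fun x => W2 m (Q x) := by unfold W2; fun_prop
  have h10 : Continuous fun x => conj (W2 m (Q x)) := Complex.continuous_conj.comp h9
  unfold LL1 LL2
  constructor <;> fun_prop

/-- **X2, pointwise equation.** -/
theorem LL_modeFn (hd : 1 ≤ d) (hQ : Continuous Q) (hq : ∀ x, Q x = q ‖x‖) {F G hF hG : ℝ → ℂ}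
    (sF : ContDiff ℝ ∞ hF) (sG : ContDiff ℝ ∞ hG)
    (eF : ∀ r : ℝ, 0 < r → F r = (r : ℂ) ^ l * hF (r ^ 2))
    (eG : ∀ r : ℝ, 0 < r → G r = (r : ℂ) ^ l * hG (r ^ 2)) {s1 s2 : ℝ → ℂ}
    (hs1 : ContDiff ℝ ∞ s1) (hs2 : ContDiff ℝ ∞ s2)
    (e1 : ∀ r : ℝ, 0 < r → RL1 d m l w q F G r = lam * F r + (r : ℂ) ^ l * s1 (r ^ 2))
    (e2 : ∀ r : ℝ, 0 < r → RL2 d m l w q F G r = lam * G r + (r : ℂ) ^ l * s2 (r ^ 2))
    {P : E d → ℂ} (hP : HarmP l P) (x : E d) :
    LL1 m w Q (modeFn hF P) (modeFn hG P) x = lam * modeFn hF P x + modeFn s1 P x ∧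
    LL2 m w Q (modeFn hF P) (modeFn hG P) x = lam * modeFn hG P x + modeFn s2 P x := by
  have hne : ∀ x : E d, x ≠ 0 →
      LL1 m w Q (modeFn hF P) (modeFn hG P) x = lam * modeFn hF P x + modeFn s1 P x ∧
      LL2 m w Q (modeFn hF P) (modeFn hG P) x = lam * modeFn hG P x + modeFn s2 P x := by
    intro x hx
    have hr : 0 < ‖x‖ := norm_pos_iff.mpr hx
    have hr' : (‖x‖ : ℂ) ≠ 0 := by exact_mod_cast hr.ne'
    obtain ⟨a1, a2⟩ := LL_modeFn_ne (m := m) (w := w) hq sF sG eF eG hP hx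
    rw [a1, a2, e1 _ hr, e2 _ hr, eF _ hr, eG _ hr]
    simp only [modeFn]
    constructor <;> field_simp
  have cF := contDiff_modeFn sF hP.toHomP
  have cG := contDiff_modeFn sG hP.toHomP
  have c1 := contDiff_modeFn hs1 hP.toHomP
  have c2 := contDiff_modeFn hs2 hP.toHomP
  obtain ⟨k1, k2⟩ := continuous_LL (m := m) (w := w) hQ cF cG
  have hdense : Dense {x : E d | x ≠ 0} := by
    have : Nontrivial (E d) := by
      have : Nonempty (Fin d) := ⟨⟨0, hd⟩⟩
      infer_instance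
    exact dense_compl_singleton (0 : E d)
  have m1 : LL1 m w Q (modeFn hF P) (modeFn hG P) =
      fun x => lam * modeFn hF P x + modeFn s1 P x :=
    Continuous.ext_on hdense k1 ((continuous_const.mul cF.continuous).add c1.continuous)
      fun x hx => (hne x hx).1
  have m2 : LL2 m w Q (modeFn hF P) (modeFn hG P) =
      fun x => lam * modeFn hG P x + modeFn s2 P x :=
    Continuous.ext_on hdense k2 ((continuous_const.mul cG.continuous).add c2.continuous)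
      fun x hx => (hne x hx).2
  exact ⟨congrFun m1 x, congrFun m2 x⟩

/-! ### The standard harmonic polynomial `(y₀ + i y₁)^l` -/

/-- The linear form `y₀ + i y₁`. -/
noncomputable def lin01 (hd : 2 ≤ d) : E d →L[ℝ] ℂ :=
  Complex.ofRealCLM.comp (EuclideanSpace.proj (⟨0, by omega⟩ : Fin d) : E d →L[ℝ] ℝ)
    + I • Complex.ofRealCLM.comp (EuclideanSpace.proj (⟨1, by omega⟩ : Fin d) : E d →L[ℝ] ℝ)

lemma pd_pow_lin {hd : 2 ≤ d} (k : ℕ) (j : Fin d) (x : E d) :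
    pd j (fun y => (lin01 hd y) ^ k) x =
      k * (lin01 hd x) ^ (k - 1) * lin01 hd (EuclideanSpace.single j 1) := by
  have h1 : HasFDerivAt (fun y => (lin01 hd y) ^ k)
      ((k * (lin01 hd x) ^ (k - 1)) • (lin01 hd)) x := by
    have h2 : HasDerivAt (fun z : ℂ => z ^ k) (k * (lin01 hd x) ^ (k - 1)) (lin01 hd x) :=
      hasDerivAt_pow k _
    exact h2.comp_hasFDerivAt x (lin01 hd).hasFDerivAt
  rw [pd_eq h1]
  simp

lemma lin01_single_sum (hd : 2 ≤ d) :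
    ∑ j : Fin d, lin01 hd (EuclideanSpace.single j 1) ^ 2 = 0 := by
  have h1 : ∀ j : Fin d, lin01 hd (EuclideanSpace.single j 1) =
      (if (⟨0, by omega⟩ : Fin d) = j then 1 else 0)
        + I * (if (⟨1, by omega⟩ : Fin d) = j then 1 else 0) := by
    intro j
    have e0 : ∀ i : Fin d, (EuclideanSpace.single j (1 : ℝ) : E d) i = if i = j then 1 else 0 :=
      fun i => by simp
    have e1 : lin01 hd (EuclideanSpace.single j 1) =
        ((EuclideanSpace.single j (1 : ℝ) : E d) ⟨0, by omega⟩ : ℂ)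
          + I * ((EuclideanSpace.single j (1 : ℝ) : E d) ⟨1, by omega⟩ : ℂ) := by
      simp [lin01]
    rw [e1, e0, e0]
    simp only [apply_ite Complex.ofReal, ofReal_one, ofReal_zero]
  have h2 : ∀ j : Fin d, lin01 hd (EuclideanSpace.single j 1) ^ 2 =
      (if (⟨0, by omega⟩ : Fin d) = j then 1 else 0)
        - (if (⟨1, by omega⟩ : Fin d) = j then 1 else 0) := by
    intro j
    rw [h1 j]
    by_cases c0 : (⟨0, by omega⟩ : Fin d) = j
    · have c1 : ¬ (⟨1, by omega⟩ : Fin d) = j := by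
        intro h
        rw [← c0] at h
        simp at h
      simp [c0, c1]
    · by_cases c1 : (⟨1, by omega⟩ : Fin d) = j
      · simp [c0, c1]
      · simp [c0, c1]
  simp_rw [h2]
  rw [Finset.sum_sub_distrib]
  simp

/-- `(y₀ + i y₁)^l` is harmonic and homogeneous. -/
theorem harmP_pow (hd : 2 ≤ d) (l : ℕ) : HarmP l (fun y : E d => (lin01 hd y) ^ l) := by
  refine ⟨⟨?_, ?_⟩, ?_⟩
  · exact (lin01 hd).contDiff.pow l
  · intro t x
    rw [map_smul, real_smul, mul_pow]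
  · intro x
    unfold lap
    have h1 : ∀ j : Fin d, pd j (pd j (fun y : E d => (lin01 hd y) ^ l)) x =
        ((l : ℂ) * ((l - 1 : ℕ) : ℂ) * (lin01 hd x) ^ (l - 1 - 1)) *
          lin01 hd (EuclideanSpace.single j 1) ^ 2 := by
      intro j
      have h2 : pd j (fun y : E d => (lin01 hd y) ^ l) = fun y =>
          (l * lin01 hd (EuclideanSpace.single j 1)) * (lin01 hd y) ^ (l - 1) := by
        funext y
        rw [pd_pow_lin]
        ring
      have h3 : DifferentiableAt ℝ (fun y : E d => (lin01 hd y) ^ (l - 1)) x :=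
        ((lin01 hd).contDiff.pow (l - 1) (n := 1)).differentiable (by norm_num) x
      rw [h2, pd_mul (differentiableAt_const _) h3, pd_pow_lin]
      have h4 : pd j (fun _ : E d => (l : ℂ) * lin01 hd (EuclideanSpace.single j 1)) x = 0 := by
        rw [pd_eq (hasFDerivAt_const _ x)]
        simp
      rw [h4]
      ring
    simp_rw [h1]
    rw [← Finset.mul_sum, lin01_single_sum, mul_zero]

end Vale.Agent.P139.H523
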